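import Mathlib

/-!
# P202, characteristic zero: power series agreeing in low degree through a ring map

For `ψ : A → F` on a subring of `k`, a pair of power series over `k` and `F` agrees below degree
`M` if some series over `A` has these images below degree `M`. The pairs form a subring.
-/

noncomputable section

namespace Vale.Agent.P202.Zero.Apx

open MvPowerSeries

universe u

section LowEq

variable {σ : Type*} {R : Type*} [CommRing R] {M : ℕ}

/-- The coefficients below degree `M` are the same. -/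
def LowEq (M : ℕ) (f g : MvPowerSeries σ R) : Prop :=
  ∀ β : σ →₀ ℕ, β.degree < M → coeff β f = coeff β g

theorem LowEq.refl (f : MvPowerSeries σ R) : LowEq M f f := fun _ _ => rfl

theorem LowEq.trans {f g h : MvPowerSeries σ R} (h1 : LowEq M f g) (h2 : LowEq M g h) :
    LowEq M f h := fun β hβ => (h1 β hβ).trans (h2 β hβ)

theorem LowEq.add {f g f' g' : MvPowerSeries σ R} (h1 : LowEq M f g) (h2 : LowEq M f' g') :
    LowEq M (f + f') (g + g') := fun β hβ => by
  rw [map_add, map_add, h1 β hβ, h2 β hβ]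

theorem LowEq.neg {f g : MvPowerSeries σ R} (h1 : LowEq M f g) : LowEq M (-f) (-g) := fun β hβ => by
  rw [map_neg, map_neg, h1 β hβ]

theorem LowEq.mul {f g f' g' : MvPowerSeries σ R} (h1 : LowEq M f g) (h2 : LowEq M f' g') :
    LowEq M (f * f') (g * g') := fun β hβ => by
  classical
  rw [coeff_mul, coeff_mul]
  refine Finset.sum_congr rfl fun x hx => ?_
  rw [Finset.HasAntidiagonal.mem_antidiagonal] at hx
  have h : x.1.degree + x.2.degree = β.degree := by rw [← map_add, hx]
  rw [h1 x.1 (by omega), h2 x.2 (by omega)]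

theorem LowEq.mono {f g : MvPowerSeries σ R} {M' : ℕ} (h : M ≤ M') (h1 : LowEq M' f g) :
    LowEq M f g := fun β hβ => h1 β (lt_of_lt_of_le hβ h)

theorem lowEq_subst {τ : Type*} [Finite σ] {a : σ → MvPowerSeries τ R}
    (ha : ∀ i, constantCoeff (a i) = 0) {f g : MvPowerSeries σ R} (h : LowEq M f g) :
    LowEq M (subst a f) (subst a g) := fun β hβ => by
  have hs := hasSubst_of_constantCoeff_zero ha
  rw [← sub_eq_zero, ← map_sub, ← subst_sub hs]
  refine coeff_of_lt_order (lt_of_lt_of_le ?_ (le_order_subst hs (f - g)))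
  have h1 : (1 : ℕ∞) ≤ ⨅ i, (a i).order := le_iInf fun i => by
    refine le_order fun e he => ?_
    have : e.degree = 0 := by
      have : ((e.degree : ℕ) : ℕ∞) < ((1 : ℕ) : ℕ∞) := by simpa using he
      have := Nat.cast_lt.1 this
      omega
    rw [Finsupp.degree_eq_zero_iff] at this
    rw [this, coeff_zero_eq_constantCoeff_apply, ha i]
  have h2 : (M : ℕ∞) ≤ (f - g).order := le_order fun β' hβ' => by
    rw [map_sub, h β' (by exact_mod_cast hβ'), sub_self]
  calc ((β.degree : ℕ) : ℕ∞) < M := by exact_mod_cast hβ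
    _ = 1 * M := (one_mul _).symm
    _ ≤ _ := mul_le_mul' h1 h2

end LowEq

section Agree

variable {k : Type u} [Field k] {F : Type u} [Field F] {A : Subring k}

/-- Pairs agreeing below degree `M`. -/
def agree (σ : Type*) (ψ : A →+* F) (M : ℕ) : Subring (MvPowerSeries σ k × MvPowerSeries σ F) where
  carrier := {x | ∃ z : MvPowerSeries σ A,
    LowEq M (map A.subtype z) x.1 ∧ LowEq M (map ψ z) x.2}
  zero_mem' := ⟨0, by rw [map_zero]; exact LowEq.refl _, by rw [map_zero]; exact LowEq.refl _⟩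
  one_mem' := ⟨1, by rw [map_one]; exact LowEq.refl _, by rw [map_one]; exact LowEq.refl _⟩
  add_mem' := fun ⟨z, h1, h2⟩ ⟨z', h1', h2'⟩ =>
    ⟨z + z', by rw [map_add]; exact h1.add h1', by rw [map_add]; exact h2.add h2'⟩
  mul_mem' := fun ⟨z, h1, h2⟩ ⟨z', h1', h2'⟩ =>
    ⟨z * z', by rw [map_mul]; exact h1.mul h1', by rw [map_mul]; exact h2.mul h2'⟩
  neg_mem' := fun ⟨z, h1, h2⟩ =>
    ⟨-z, by rw [map_neg]; exact h1.neg, by rw [map_neg]; exact h2.neg⟩

variable {σ : Type*} {ψ : A →+* F} {M : ℕ} {f : MvPowerSeries σ k} {g : MvPowerSeries σ F}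

theorem agree_def : (f, g) ∈ agree σ ψ M ↔ ∃ z : MvPowerSeries σ A,
    LowEq M (map A.subtype z) f ∧ LowEq M (map ψ z) g := Iff.rfl

theorem agree_mono {M' : ℕ} (h : M ≤ M') (hfg : (f, g) ∈ agree σ ψ M') : (f, g) ∈ agree σ ψ M := by
  obtain ⟨z, h1, h2⟩ := agree_def.1 hfg
  exact agree_def.2 ⟨z, h1.mono h, h2.mono h⟩

theorem agree_incl {A' : Subring k} (h : A' ≤ A) (hfg : (f, g) ∈ agree σ (ψ.comp (Subring.inclusion h)) M) :
    (f, g) ∈ agree σ ψ M := by
  obtain ⟨z, h1, h2⟩ := agree_def.1 hfg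
  refine agree_def.2 ⟨map (Subring.inclusion h) z, ?_, ?_⟩
  · intro β hβ
    rw [← h1 β hβ]
    simp
  · intro β hβ
    rw [← h2 β hβ]
    simp

theorem agree_coeff (hfg : (f, g) ∈ agree σ ψ M) {β : σ →₀ ℕ} (hβ : β.degree < M) (a : A)
    (ha : (a : k) = coeff β f) : coeff β g = ψ a := by
  obtain ⟨z, h1, h2⟩ := agree_def.1 hfg
  rw [← h2 β hβ, coeff_map]
  congr 1
  refine Subtype.ext ?_
  rw [ha, ← h1 β hβ, coeff_map]
  rfl

theorem exists_agree (ψ : A →+* F) (hf : ∀ β : σ →₀ ℕ, β.degree < M → coeff β f ∈ A) :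
    ∃ g, (f, g) ∈ agree σ ψ M := by
  classical
  let z : MvPowerSeries σ A := fun β => if h : β.degree < M then ⟨coeff β f, hf β h⟩ else 0
  refine ⟨map ψ z, agree_def.2 ⟨z, fun β hβ => ?_, LowEq.refl _⟩⟩
  rw [coeff_map]
  change A.subtype (if h : β.degree < M then (⟨coeff β f, hf β h⟩ : A) else 0) = _
  rw [dif_pos hβ]
  rfl

theorem agree_C (ψ : A →+* F) (a : A) :
    ((C (a : k) : MvPowerSeries σ k), (C (ψ a) : MvPowerSeries σ F)) ∈ agree σ ψ M :=
  agree_def.2 ⟨C a, by rw [map_C]; exact LowEq.refl _, by rw [map_C]; exact LowEq.refl _⟩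

theorem agree_X (ψ : A →+* F) (i : σ) :
    ((X i : MvPowerSeries σ k), (X i : MvPowerSeries σ F)) ∈ agree σ ψ M :=
  agree_def.2 ⟨X i, by rw [map_X]; exact LowEq.refl _, by rw [map_X]; exact LowEq.refl _⟩

theorem agree_subst {τ : Type*} [Finite σ] {a : σ → MvPowerSeries τ A}
    (ha : ∀ i, constantCoeff (a i) = 0) (hfg : (f, g) ∈ agree σ ψ M) :
    (subst (fun i => map A.subtype (a i)) f, subst (fun i => map ψ (a i)) g) ∈ agree τ ψ M := by
  obtain ⟨z, h1, h2⟩ := agree_def.1 hfg
  have hs := hasSubst_of_constantCoeff_zero ha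
  refine agree_def.2 ⟨subst a z, ?_, ?_⟩
  · rw [map_subst hs]
    exact lowEq_subst (fun i => by rw [constantCoeff_map, ha i, map_zero]) h1
  · rw [map_subst hs]
    exact lowEq_subst (fun i => by rw [constantCoeff_map, ha i, map_zero]) h2

end Agree

section Succ

variable (R : Type*) [CommRing R] (n : ℕ)

/-- Polynomials in the first variable as power series. -/
def phi : Polynomial (MvPowerSeries (Fin n) R) →+* MvPowerSeries (Fin (n + 1)) R :=
  ((finSuccEquiv R n).symm : PowerSeries (MvPowerSeries (Fin n) R) →+*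
    MvPowerSeries (Fin (n + 1)) R).comp Polynomial.coeToPowerSeries.ringHom

variable {R n}

theorem finSuccEquiv_phi (p : Polynomial (MvPowerSeries (Fin n) R)) :
    finSuccEquiv R n (phi R n p) = (p : PowerSeries (MvPowerSeries (Fin n) R)) :=
  (finSuccEquiv R n).apply_symm_apply _

theorem coeff_phi (p : Polynomial (MvPowerSeries (Fin n) R)) (β : Fin (n + 1) →₀ ℕ) :
    coeff β (phi R n p) = coeff β.tail (p.coeff (β 0)) := by
  rw [← Polynomial.coeff_coe, ← finSuccEquiv_phi, coeff_coeff_finSuccEquiv, Finsupp.cons_tail]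

theorem degree_cons (j : ℕ) (x : Fin n →₀ ℕ) : (x.cons j).degree = j + x.degree := by
  simp [Finsupp.degree_eq_sum, Fin.sum_univ_succ]

theorem degree_tail_le (β : Fin (n + 1) →₀ ℕ) : β.tail.degree ≤ β.degree := by
  conv_rhs => rw [← Finsupp.cons_tail β, degree_cons]
  omega

variable {k : Type u} [Field k] {F : Type u} [Field F] {A : Subring k} {ψ : A →+* F} {M : ℕ}

theorem agree_phi {p : Polynomial (MvPowerSeries (Fin n) k)}
    {p' : Polynomial (MvPowerSeries (Fin n) F)}
    (h : ∀ j, (p.coeff j, p'.coeff j) ∈ agree (Fin n) ψ M) :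
    (phi k n p, phi F n p') ∈ agree (Fin (n + 1)) ψ M := by
  choose z hz1 hz2 using fun j => agree_def.1 (h j)
  let w : MvPowerSeries (Fin (n + 1)) A := fun β => coeff β.tail (z (β 0))
  have hw : ∀ β, coeff β w = coeff β.tail (z (β 0)) := fun β => rfl
  refine agree_def.2 ⟨w, fun β hβ => ?_, fun β hβ => ?_⟩
  · rw [coeff_phi, ← hz1 (β 0) β.tail ((degree_tail_le β).trans_lt hβ), coeff_map, coeff_map, hw]
  · rw [coeff_phi, ← hz2 (β 0) β.tail ((degree_tail_le β).trans_lt hβ), coeff_map, coeff_map, hw]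

end Succ

end Vale.Agent.P202.Zero.Apx
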