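import Vale.Agent.P202.Zero.Approx.Agree

/-!
# P202, equal characteristic zero: substitutions tangent to the identity are bijective
-/

noncomputable section

namespace Vale.Agent.P202.Zero.Apx

open MvPowerSeries

variable {σ τ : Type*} {R : Type*} [CommRing R]

theorem LowEq.symm {M : ℕ} {f g : MvPowerSeries σ R} (h : LowEq M f g) : LowEq M g f :=
  fun β hβ => (h β hβ).symm

/-- Two series of order at least `j` that agree through degree `j`. -/
def Tangent (j : ℕ) (a b : MvPowerSeries σ R) : Prop :=
  LowEq j a 0 ∧ LowEq j b 0 ∧ LowEq (j + 1) a b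

theorem lowEq_mul_zero {i j : ℕ} {a b : MvPowerSeries σ R} (ha : LowEq i a 0) (hb : LowEq j b 0) :
    LowEq (i + j) (a * b) 0 := fun β hβ => by
  classical
  rw [coeff_mul, map_zero]
  refine Finset.sum_eq_zero fun x hx => ?_
  rw [Finset.HasAntidiagonal.mem_antidiagonal] at hx
  have h : x.1.degree + x.2.degree = β.degree := by rw [← map_add, hx]
  rcases lt_or_ge x.1.degree i with h1 | h1
  · rw [ha _ h1, map_zero, zero_mul]
  · rw [hb _ (by omega), map_zero, mul_zero]

theorem Tangent.mul {i j : ℕ} {a b a' b' : MvPowerSeries σ R} (h : Tangent i a b)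
    (h' : Tangent j a' b') : Tangent (i + j) (a * a') (b * b') := by
  classical
  refine ⟨lowEq_mul_zero h.1 h'.1, lowEq_mul_zero h.2.1 h'.2.1, fun β hβ => ?_⟩
  rw [coeff_mul, coeff_mul]
  refine Finset.sum_congr rfl fun x hx => ?_
  rw [Finset.HasAntidiagonal.mem_antidiagonal] at hx
  have hd : x.1.degree + x.2.degree = β.degree := by rw [← map_add, hx]
  rcases lt_or_ge x.1.degree i with h1 | h1
  · rw [h.1 _ h1, h.2.1 _ h1, map_zero, zero_mul, zero_mul]
  rcases lt_or_ge x.2.degree j with h2 | h2
  · rw [h'.1 _ h2, h'.2.1 _ h2, map_zero, mul_zero, mul_zero]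
  rw [h.2.2 _ (by omega), h'.2.2 _ (by omega)]

theorem tangent_one : Tangent 0 (1 : MvPowerSeries σ R) 1 :=
  ⟨fun β hβ => absurd hβ (by omega), fun β hβ => absurd hβ (by omega), LowEq.refl _⟩

theorem Tangent.pow {j : ℕ} {a b : MvPowerSeries σ R} (h : Tangent j a b) :
    ∀ e : ℕ, Tangent (e * j) (a ^ e) (b ^ e)
  | 0 => by simpa using (tangent_one (σ := σ) (R := R))
  | e + 1 => by
    rw [Nat.succ_mul, pow_succ, pow_succ]
    exact (h.pow e).mul h

theorem tangent_prod {ι : Type*} (s : Finset ι) (j : ι → ℕ) (a b : ι → MvPowerSeries σ R)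
    (h : ∀ i ∈ s, Tangent (j i) (a i) (b i)) :
    Tangent (∑ i ∈ s, j i) (∏ i ∈ s, a i) (∏ i ∈ s, b i) := by
  classical
  induction s using Finset.induction_on with
  | empty => simpa using (tangent_one (σ := σ) (R := R))
  | insert i s hi ih =>
    rw [Finset.sum_insert hi, Finset.prod_insert hi, Finset.prod_insert hi]
    exact (h i (Finset.mem_insert_self i s)).mul (ih fun x hx => h x (Finset.mem_insert_of_mem hx))

theorem LowEq.pow {M : ℕ} {f g : MvPowerSeries σ R} (h : LowEq M f g) :
    ∀ e : ℕ, LowEq M (f ^ e) (g ^ e)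
  | 0 => by simpa using LowEq.refl (1 : MvPowerSeries σ R)
  | e + 1 => by
    rw [pow_succ, pow_succ]
    exact (h.pow e).mul h

theorem lowEq_prod {ι : Type*} {M : ℕ} {a b : ι → MvPowerSeries σ R} (s : Finset ι)
    (h : ∀ i, LowEq M (a i) (b i)) : LowEq M (∏ i ∈ s, a i) (∏ i ∈ s, b i) := by
  classical
  induction s using Finset.induction_on with
  | empty => simpa using LowEq.refl (1 : MvPowerSeries σ R)
  | insert i s hi ih =>
    rw [Finset.prod_insert hi, Finset.prod_insert hi]
    exact (h i).mul ih

/-- Substitutions agreeing in low degree give series agreeing in low degree. -/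
theorem lowEq_subst_left [Finite σ] {a b : σ → MvPowerSeries τ R}
    (ha : ∀ i, constantCoeff (a i) = 0) (hb : ∀ i, constantCoeff (b i) = 0) {M : ℕ}
    (h : ∀ i, LowEq M (a i) (b i)) (f : MvPowerSeries σ R) :
    LowEq M (subst a f) (subst b f) := fun β hβ => by
  rw [coeff_subst (hasSubst_of_constantCoeff_zero ha), coeff_subst (hasSubst_of_constantCoeff_zero hb)]
  refine finsum_congr fun d => ?_
  congr 1
  exact lowEq_prod _ (fun i => (h i).pow _) β hβ

variable [Finite σ] {a : σ → MvPowerSeries σ R}

omit [Finite σ] in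
theorem constantCoeff_eq_zero_of_lowEq (ha : ∀ i, LowEq 2 (a i) (X i)) (i : σ) :
    constantCoeff (a i) = 0 := by
  have h := ha i 0 (by simp)
  rwa [coeff_zero_eq_constantCoeff_apply, coeff_zero_eq_constantCoeff_apply, constantCoeff_X] at h

/-- Such a substitution moves a series only in higher degree. -/
theorem lowEq_subst_self (ha : ∀ i, LowEq 2 (a i) (X i)) {o : ℕ} {f : MvPowerSeries σ R}
    (hf : LowEq o f 0) : LowEq (o + 1) (subst a f) f := fun β hβ => by
  have ha0 := constantCoeff_eq_zero_of_lowEq ha
  conv_rhs => rw [← id_eq f, ← subst_self]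
  rw [coeff_subst (hasSubst_of_constantCoeff_zero ha0), coeff_subst HasSubst.X]
  refine finsum_congr fun d => ?_
  rcases lt_or_ge d.degree o with hd | hd
  · rw [hf d hd, map_zero, zero_smul, zero_smul]
  congr 1
  have hlin : ∀ i, Tangent 1 (a i) (X i) := fun i => by
    refine ⟨fun e he => ?_, fun e he => ?_, ha i⟩ <;>
      obtain rfl : e = 0 := (Finsupp.degree_eq_zero_iff e).1 (by omega)
    · rw [map_zero, coeff_zero_eq_constantCoeff_apply, ha0 i]
    · rw [map_zero, coeff_zero_eq_constantCoeff_apply, constantCoeff_X]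
  have hprod := tangent_prod d.support (fun i => d i * 1) (fun i => a i ^ d i)
    (fun i => X i ^ d i) fun i _ => (hlin i).pow (d i)
  exact hprod.2.2 β (by simp only [mul_one]; rw [← Finsupp.degree_apply]; omega)

/-- Substitutions tangent to the identity are injective. -/
theorem subst_injective (ha : ∀ i, LowEq 2 (a i) (X i)) :
    Function.Injective (subst a : MvPowerSeries σ R → MvPowerSeries σ R) := by
  have hs := hasSubst_of_constantCoeff_zero (constantCoeff_eq_zero_of_lowEq ha)
  intro f g hfg
  have h0 : subst a (f - g) = 0 := by rw [subst_sub hs, hfg, sub_self]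
  rw [← sub_eq_zero]
  have key : ∀ o, LowEq o (f - g) 0 := fun o => by
    induction o with
    | zero => exact fun β hβ => absurd hβ (by omega)
    | succ o ih =>
      intro β hβ
      rw [← lowEq_subst_self ha ih β hβ, h0]
  exact MvPowerSeries.ext fun β => key (β.degree + 1) β (Nat.lt_succ_self _)

/-- Substitutions tangent to the identity are surjective. -/
theorem subst_surjective (ha : ∀ i, LowEq 2 (a i) (X i)) :
    Function.Surjective (subst a : MvPowerSeries σ R → MvPowerSeries σ R) := by
  have ha0 := constantCoeff_eq_zero_of_lowEq ha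
  have hs := hasSubst_of_constantCoeff_zero ha0
  intro g
  let F : ℕ → MvPowerSeries σ R := fun o => Nat.rec 0 (fun _ f => f + (g - subst a f)) o
  have hF : ∀ o, F (o + 1) = F o + (g - subst a (F o)) := fun o => rfl
  have inv : ∀ o, LowEq o (subst a (F o)) g := fun o => by
    induction o with
    | zero => exact fun β hβ => absurd hβ (by omega)
    | succ o ih =>
      have hr : LowEq o (g - subst a (F o)) 0 := fun β hβ => by
        rw [map_sub, ih β hβ, sub_self, map_zero]
      intro β hβ
      rw [hF, subst_add hs, map_add, lowEq_subst_self ha hr β hβ, map_sub]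
      ring
  have mono : ∀ o o', o ≤ o' → LowEq o (F o') (F o) := fun o o' ho => by
    induction ho with
    | refl => exact LowEq.refl _
    | @step l hl ih =>
      refine LowEq.trans (fun β hβ => ?_) ih
      rw [hF, map_add, map_sub, inv l β (lt_of_lt_of_le hβ hl), sub_self, add_zero]
  let f : MvPowerSeries σ R := fun β => coeff β (F (β.degree + 1))
  have hf : ∀ o, LowEq o f (F o) := fun o β hβ =>
    (mono (β.degree + 1) o hβ β (Nat.lt_succ_self _)).symm
  exact ⟨f, MvPowerSeries.ext fun β =>
    ((lowEq_subst ha0 (hf (β.degree + 1))).trans (inv (β.degree + 1))) β (Nat.lt_succ_self _)⟩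

end Vale.Agent.P202.Zero.Apx
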