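import Mathlib

/-!
# P202, equal characteristic zero: approximation into power series over other fields

A finitely generated ring of power series over a field of characteristic zero is mapped to power
series over other fields, keeping the variables and finitely many coefficients.
-/

noncomputable section

namespace Vale.Agent.P202.Zero

universe u

variable {n : ℕ}

/-- The coefficients of degree less than `M` of `y` lie in `D` and go to those of `y'`. -/
def JetEq {k : Type u} [CommRing k] (D : Subring k) {κ : Type u} [CommRing κ] (ψ : D →+* κ) (M : ℕ)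
    (y : MvPowerSeries (Fin n) k) (y' : MvPowerSeries (Fin n) κ) : Prop :=
  ∀ e : Fin n →₀ ℕ, e.degree < M →
    ∃ h : MvPowerSeries.coeff e y ∈ D, ψ ⟨MvPowerSeries.coeff e y, h⟩ = MvPowerSeries.coeff e y'

/-- The ring generated by the variables and a finite set of series. -/
def genRing {k : Type u} [CommRing k] (s : Finset (MvPowerSeries (Fin n) k)) :
    Subring (MvPowerSeries (Fin n) k) :=
  Subring.closure (Set.range MvPowerSeries.X ∪ (s : Set (MvPowerSeries (Fin n) k)))

/-- Approximation in `n` variables. -/
def ApproxAt (k : Type u) [Field k] (n : ℕ) : Prop :=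
  ∀ (s : Finset (MvPowerSeries (Fin n) k)) (M : ℕ),
    ∃ T : Finset k, ∀ D : Subring k, (T : Set k) ⊆ (D : Set k) →
      ∀ (κ : Type u) [Field κ] (ψ : D →+* κ),
        ∃ φ : genRing s →+* MvPowerSeries (Fin n) κ,
          (∀ i (h : MvPowerSeries.X i ∈ genRing s), φ ⟨MvPowerSeries.X i, h⟩ = MvPowerSeries.X i) ∧
            ∀ y (h : y ∈ genRing s), y ∈ s → JetEq D ψ M y (φ ⟨y, h⟩)

end Vale.Agent.P202.Zero
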