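import Mathlib

/-!
# P202, characteristic zero: a generic presentation of a finitely generated domain

Finitely many elements of a domain of characteristic zero are rational in independent elements `t`
and one separable integral element `u`.
-/

noncomputable section

namespace Vale.Agent.P202.Zero.Apx

open Polynomial
open scoped IntermediateField

universe u

/-- Integer polynomials in `m + 1` variables, the last one singled out. -/
abbrev IPoly (m : ℕ) := Polynomial (MvPolynomial (Fin m) ℤ)

/-- Evaluation of the parameters. -/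
abbrev tev {R : Type*} [CommRing R] {m : ℕ} (τ : Fin m → R) : MvPolynomial (Fin m) ℤ →+* R :=
  MvPolynomial.eval₂Hom (Int.castRingHom R) τ

/-- Evaluation at parameters and a last variable. -/
abbrev pev {R : Type*} [CommRing R] {m : ℕ} (τ : Fin m → R) (υ : R) : IPoly m →+* R :=
  Polynomial.eval₂RingHom (tev τ) υ

/-- Evaluations commute with ring maps. -/
theorem map_tev {R S : Type*} [CommRing R] [CommRing S] (f : R →+* S) {m : ℕ} (τ : Fin m → R)
    (q : MvPolynomial (Fin m) ℤ) : f (tev τ q) = tev (fun j => f (τ j)) q := by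
  have : f.comp (tev τ) = tev fun j => f (τ j) :=
    MvPolynomial.ringHom_ext (fun r => by simp) (fun j => by simp)
  exact RingHom.congr_fun this q

/-- Evaluations commute with ring maps. -/
theorem map_pev {R S : Type*} [CommRing R] [CommRing S] (f : R →+* S) {m : ℕ} (τ : Fin m → R)
    (υ : R) (q : IPoly m) : f (pev τ υ q) = pev (fun j => f (τ j)) (f υ) q := by
  have : f.comp (pev τ υ) = pev (fun j => f (τ j)) (f υ) :=
    Polynomial.ringHom_ext (fun r => by simpa using map_tev f τ r) (by simp)
  exact RingHom.congr_fun this q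

/-- A relation among fractions is a relation among the numerators and the denominator. -/
theorem exists_clear {ι : Type*} {m : ℕ} (h : MvPolynomial (Fin m) ℤ) (Q : ι → IPoly m)
    (q : MvPolynomial ι ℤ) : ∃ (N : ℕ) (Qt : IPoly m), ∀ (R : Type u) [CommRing R]
      (τ : Fin m → R) (υ : R) (β : ι → R), (∀ i, pev τ υ (Q i) = tev τ h * β i) →
        tev τ h ^ N * MvPolynomial.eval₂Hom (Int.castRingHom R) β q = pev τ υ Qt := by
  induction q using MvPolynomial.induction_on with
  | C a => exact ⟨0, (a : IPoly m), fun R _ τ υ β _ => by simp⟩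
  | add p q hp hq =>
    obtain ⟨N, P', hP⟩ := hp
    obtain ⟨N', Q', hQ⟩ := hq
    refine ⟨N + N', Polynomial.C (h ^ N') * P' + Polynomial.C (h ^ N) * Q',
      fun R _ τ υ β hβ => ?_⟩
    rw [map_add, map_add, map_mul, map_mul, ← hP R τ υ β hβ, ← hQ R τ υ β hβ]
    simp only [coe_eval₂RingHom, eval₂_C, map_pow]
    ring
  | mul_X p i hp =>
    obtain ⟨N, P', hP⟩ := hp
    refine ⟨N + 1, P' * Q i, fun R _ τ υ β hβ => ?_⟩
    rw [map_mul, map_mul, ← hP R τ υ β hβ, hβ i, MvPolynomial.eval₂Hom_X']
    ring

/-- A generic presentation. -/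
theorem exists_presentation {P : Type u} [CommRing P] [IsDomain P] [CharZero P] {ι : Type}
    [Finite ι] (b : ι → P) :
    ∃ (m : ℕ) (t : Fin m → P) (υ : P) (μ : IPoly m) (h : MvPolynomial (Fin m) ℤ)
      (Q : ι → IPoly m), μ.Monic ∧ pev t υ μ = 0 ∧ pev t υ (derivative μ) ≠ 0 ∧ tev t h ≠ 0 ∧
        (∀ q, pev t υ q = 0 → μ ∣ q) ∧ ∀ i, pev t υ (Q i) = tev t h * b i := by
  classical
  -- a transcendence basis among the elements
  let L := FractionRing P
  let Alg : Set (Finset ι) := {s | AlgebraicIndependent ℤ fun i : s => b i}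
  obtain ⟨s, hs, hmax⟩ : ∃ s ∈ Alg, ∀ s' ∈ Alg, s ⊆ s' → s' = s := by
    have hne : Alg.Nonempty := ⟨∅, by
      show AlgebraicIndependent ℤ fun i : (∅ : Finset ι) => b i
      exact algebraicIndependent_empty_type_iff.2 Int.cast_injective⟩
    obtain ⟨s, h1, h2⟩ := Set.Finite.exists_maximalFor Finset.card Alg (Set.toFinite _) hne
    exact ⟨s, h1, fun s' h3 h4 => (Finset.eq_of_subset_of_card_le h4
      (h2 h3 (Finset.card_le_card h4))).symm⟩
  let m := s.card
  let eqv : Fin m ≃ s := s.equivFin.symm
  let t : Fin m → P := fun j => b (eqv j)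
  have ht : AlgebraicIndependent ℤ t := hs.comp eqv eqv.injective
  let D := MvPolynomial (Fin m) ℤ
  let algP : Algebra D P := (tev t).toAlgebra
  have htev : ∀ q, algebraMap D P q = MvPolynomial.aeval t q := fun q => by
    rw [RingHom.algebraMap_toAlgebra]
    rfl
  have hinjP : Function.Injective (algebraMap D P) := fun x y h => ht (by simpa [htev] using h)
  have : IsScalarTower D P L := inferInstance
  have : Module.IsTorsionFree D P := Module.isTorsionFree_iff_algebraMap_injective.2 hinjP
  have hinjL : Function.Injective (algebraMap D L) :=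
    by rw [IsScalarTower.algebraMap_eq D P L]; exact (IsFractionRing.injective P L).comp hinjP
  let K₀ := FractionRing D
  let algK : Algebra K₀ L := (IsFractionRing.lift hinjL).toAlgebra
  have : IsScalarTower D K₀ L := IsScalarTower.of_algebraMap_eq fun q => by
    rw [RingHom.algebraMap_toAlgebra]
    exact (IsFractionRing.lift_algebraMap hinjL q).symm
  -- all elements are algebraic over the parameters
  have halg : ∀ i, IsAlgebraic D (b i) := fun i => by
    by_cases hi : i ∈ s
    · have : b i = algebraMap D P (MvPolynomial.X (eqv.symm ⟨i, hi⟩)) := by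
        rw [htev, MvPolynomial.aeval_X]
        simp [t]
      rw [this]
      exact isAlgebraic_algebraMap _
    · by_contra hni
      refine hi ?_
      suffices h : insert i s ∈ Alg by
        rw [← hmax _ h (Finset.subset_insert _ _)]
        exact Finset.mem_insert_self _ _
      have hopt : AlgebraicIndependent ℤ fun o : Option (Fin m) => o.elim (b i) t := by
        rw [ht.option_iff_transcendental]
        rintro ⟨q, hq0, hq⟩
        refine hni ⟨q.map (ht.aevalEquiv.symm : Algebra.adjoin ℤ (Set.range t) →+* D), ?_, ?_⟩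
        · exact (Polynomial.map_ne_zero_iff ht.aevalEquiv.symm.injective).2 hq0
        · rw [Polynomial.aeval_def, Polynomial.eval₂_map, ← hq, Polynomial.aeval_def]
          congr 1
          ext x
          rw [RingHom.comp_apply, htev]
          change MvPolynomial.aeval t (ht.aevalEquiv.symm x) = (x : P)
          rw [← ht.algebraMap_aevalEquiv, AlgEquiv.apply_symm_apply]
          rfl
      let g : ↥(insert i s) → Option (Fin m) := fun j =>
        if h : (j : ι) ∈ s then some (eqv.symm ⟨j, h⟩) else none
      have hg : Function.Injective g := by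
        intro x y hxy
        rcases x with ⟨x, hx⟩
        rcases y with ⟨y, hy⟩
        simp only [Finset.mem_insert] at hx hy
        simp only [g] at hxy
        split_ifs at hxy <;> simp_all
      have : (fun j : ↥(insert i s) => b j) =
          (fun o : Option (Fin m) => o.elim (b i) t) ∘ g := by
        funext j
        simp only [Function.comp_apply, g]
        split_ifs with h
        · simp [t]
        · have := j.2
          simp only [Finset.mem_insert] at this
          simp [this.resolve_right h]
      simp only [Alg, Set.mem_ofPred_eq, this]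
      exact hopt.comp g hg
  -- the primitive element
  have hint : ∀ i, IsIntegral K₀ (algebraMap P L (b i)) := fun i =>
    ((halg i).algebraMap (A := L)).extendScalars (IsFractionRing.injective D K₀) |>.isIntegral
  let E : IntermediateField K₀ L :=
    IntermediateField.adjoin K₀ (Set.range fun i => algebraMap P L (b i))
  have : FiniteDimensional K₀ E :=
    IntermediateField.finiteDimensional_adjoin fun x hx => by
      obtain ⟨i, rfl⟩ := hx
      exact hint i
  have : CharZero K₀ := charZero_of_injective_algebraMap (IsFractionRing.injective D K₀)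
  obtain ⟨α, hα⟩ := Field.exists_primitive_element K₀ E
  have hαmem : (α : L) ∈ Algebra.adjoin K₀ (Set.range fun i => algebraMap P L (b i)) := by
    rw [← IntermediateField.adjoin_toSubalgebra_of_isAlgebraic
      (fun x hx => by obtain ⟨i, rfl⟩ := hx; exact (hint i).isAlgebraic)]
    exact α.2
  rw [Algebra.adjoin_range_eq_range_aeval] at hαmem
  obtain ⟨qα, hqα⟩ := hαmem
  -- a multiple of it in the ring, and an integral one
  obtain ⟨c, hc⟩ := IsLocalization.exist_integer_multiples (nonZeroDivisors D) qα.support qα.coeff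
  obtain ⟨υ₀, hυ₀⟩ : ∃ υ₀ : P, algebraMap P L υ₀ = (c : D) • (α : L) := by
    change _ ∈ (algebraMap P L).range
    rw [← hqα, AlgHom.toRingHom_eq_coe]
    simp only [RingHom.coe_coe]
    rw [qα.as_sum, map_sum, Finset.smul_sum]
    refine Subring.sum_mem _ fun e he => ?_
    rw [MvPolynomial.aeval_monomial, ← smul_mul_assoc]
    obtain ⟨a, ha⟩ := hc e he
    refine Subring.mul_mem _ (RingHom.mem_range.2 ⟨algebraMap D P a, ?_⟩) ?_
    · rw [← IsScalarTower.algebraMap_apply D P L, IsScalarTower.algebraMap_apply D K₀ L, ha,
        Algebra.smul_def, Algebra.smul_def, map_mul, ← IsScalarTower.algebraMap_apply]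
    · rw [Finsupp.prod]
      exact Subring.prod_mem _ fun i _ => Subring.pow_mem _ (RingHom.mem_range.2 ⟨b i, rfl⟩) _
  have halgυ : IsAlgebraic D υ₀ := by
    rw [← isAlgebraic_algebraMap_iff (A := L) (IsFractionRing.injective P L), hυ₀]
    refine IsAlgebraic.smul ?_ _
    exact ((IsFractionRing.isAlgebraic_iff D K₀ L).2
      (IsAlgebraic.of_finite K₀ α).algebraMap)
  obtain ⟨c', hc'0, hc'⟩ := halgυ.exists_integral_multiple
  set υ : P := c' • υ₀ with hυ
  have hυL : algebraMap P L υ = (c' * c : D) • (α : L) := by
    rw [hυ, mul_smul, ← hυ₀, Algebra.smul_def, Algebra.smul_def, map_mul,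
      ← IsScalarTower.algebraMap_apply]
  have hcc : (c' * c : D) ≠ 0 := mul_ne_zero hc'0 (nonZeroDivisors.coe_ne_zero c)
  let μ := minpoly D υ
  have hmon : μ.Monic := minpoly.monic hc'
  have hpev : ∀ q : IPoly m, pev t υ q = Polynomial.aeval υ q := fun q => rfl
  -- the elements are fractions
  have hb : ∀ i, ∃ (h : D) (q : IPoly m), h ≠ 0 ∧ pev t υ q = tev t h * b i := fun i => by
    have hbE : algebraMap P L (b i) ∈ K₀⟮(α : L)⟯ := by
      have h1 : (⟨_, IntermediateField.subset_adjoin K₀ _ ⟨i, rfl⟩⟩ : E) ∈ K₀⟮α⟯ := by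
        rw [hα]; exact IntermediateField.mem_top
      have h2 := IntermediateField.lift_adjoin_simple K₀ E α
      rw [← h2]
      exact (IntermediateField.mem_lift _).2 h1
    have hαa : IsAlgebraic K₀ (α : L) := (IsAlgebraic.of_finite K₀ α).algebraMap
    rw [← IntermediateField.mem_toSubalgebra, IntermediateField.adjoin_simple_toSubalgebra_of_isAlgebraic
      hαa, Algebra.adjoin_singleton_eq_range_aeval] at hbE
    obtain ⟨g, hg⟩ := hbE
    set g' := g.comp (Polynomial.C (algebraMap D K₀ (c' * c))⁻¹ * Polynomial.X)
    obtain ⟨h, hmem, hh⟩ := IsLocalization.integerNormalization_spec (nonZeroDivisors D) g'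
    refine ⟨h, IsLocalization.integerNormalization (nonZeroDivisors D) g',
      nonZeroDivisors.ne_zero hmem, IsFractionRing.injective P L ?_⟩
    have hev : Polynomial.aeval (algebraMap P L υ) g' = algebraMap P L (b i) := by
      rw [Polynomial.aeval_comp, map_mul, Polynomial.aeval_C, Polynomial.aeval_X, hυL,
        Algebra.smul_def, ← mul_assoc, map_inv₀, ← IsScalarTower.algebraMap_apply,
        inv_mul_cancel₀ ((map_ne_zero_iff _ hinjL).2 hcc), one_mul]
      exact hg
    rw [hpev, ← Polynomial.aeval_algebraMap_apply, map_mul, ← hev,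
      ← Polynomial.aeval_map_algebraMap K₀, hh, AlgHom.map_smul_of_tower]
    rw [Algebra.smul_def]
    rfl
  choose hd Qn hd0 hQn using hb
  have : Fintype ι := Fintype.ofFinite ι
  refine ⟨m, t, υ, μ, ∏ i, hd i, fun i => Polynomial.C (∏ j ∈ Finset.univ.erase i, hd j) * Qn i,
    hmon, minpoly.aeval D υ, fun h0 => ?_, ?_, fun q hq => ?_, fun i => ?_⟩
  · have hdvd : μ ∣ derivative μ :=
      minpoly.isIntegrallyClosed_dvd hc' (by rw [← hpev]; exact h0)
    have hne : derivative μ ≠ 0 := fun h0' => (minpoly.natDegree_pos hc').ne'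
      (Polynomial.derivative_eq_zero.1 h0')
    exact absurd (Polynomial.natDegree_le_of_dvd hdvd hne)
      (not_le.2 (Polynomial.natDegree_derivative_lt (minpoly.natDegree_pos hc').ne'))
  · intro h0
    exact Finset.prod_ne_zero_iff.2 (fun i _ => hd0 i) (hinjP (h0.trans (map_zero _).symm))
  · exact minpoly.isIntegrallyClosed_dvd hc' (by rw [← hpev]; exact hq)
  · rw [map_mul, hQn i, ← mul_assoc]
    simp only [coe_eval₂RingHom, eval₂_C, ← map_mul, Finset.prod_erase_mul _ _ (Finset.mem_univ i)]

end Vale.Agent.P202.Zero.Apx
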