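import Vale.Agent.P202.Zero.Approx.Agree
import Vale.Agent.P202.Zero.Approx.Presentation

/-!
# P202, equal characteristic zero: points of a presentation give ring maps
-/

noncomputable section

namespace Vale.Agent.P202.Zero.Apx

universe u

section Congr

variable {R : Type*} [CommRing R] {m : ℕ}

/-- Evaluations at congruent points are congruent. -/
theorem dvd_pev_sub {w υ υ' : R} {τ τ' : Fin m → R} (hτ : ∀ j, w ∣ τ j - τ' j) (hυ : w ∣ υ - υ')
    (q : IPoly m) : w ∣ pev τ υ q - pev τ' υ' q := by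
  rw [← Ideal.mem_span_singleton, ← Ideal.Quotient.eq, map_pev, map_pev,
    (Ideal.Quotient.eq.2 (Ideal.mem_span_singleton.2 hυ) :
      Ideal.Quotient.mk (Ideal.span {w}) υ = _)]
  congr 2
  funext j
  exact Ideal.Quotient.eq.2 (Ideal.mem_span_singleton.2 (hτ j))

theorem pev_C (τ : Fin m → R) (υ : R) (q : MvPolynomial (Fin m) ℤ) :
    pev τ υ (Polynomial.C q) = tev τ q :=
  Polynomial.eval₂_C _ _

/-- Evaluations at congruent parameters are congruent. -/
theorem dvd_tev_sub {w : R} {τ τ' : Fin m → R} (hτ : ∀ j, w ∣ τ j - τ' j)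
    (q : MvPolynomial (Fin m) ℤ) : w ∣ tev τ q - tev τ' q := by
  simpa only [pev_C] using dvd_pev_sub hτ (υ := (0 : R)) (υ' := 0) (by simp) (Polynomial.C q)

end Congr

section Pair

variable {R R' : Type*} [CommRing R] [CommRing R'] {m : ℕ} {S : Subring (R × R')}

/-- Subrings of a product are closed under evaluations. -/
theorem pair_pev_mem {τ : Fin m → R} {τ' : Fin m → R'} {υ : R} {υ' : R'}
    (hτ : ∀ j, (τ j, τ' j) ∈ S) (hυ : (υ, υ') ∈ S) (q : IPoly m) :
    (pev τ υ q, pev τ' υ' q) ∈ S := by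
  let τS : Fin m → S := fun j => ⟨(τ j, τ' j), hτ j⟩
  let υS : S := ⟨(υ, υ'), hυ⟩
  have h : (pev τS υS q : R × R') = (pev τ υ q, pev τ' υ' q) :=
    Prod.ext (map_pev ((RingHom.fst R R').comp S.subtype) τS υS q)
      (map_pev ((RingHom.snd R R').comp S.subtype) τS υS q)
  rw [← h]
  exact SetLike.coe_mem _

/-- Subrings of a product are closed under evaluations. -/
theorem pair_tev_mem {τ : Fin m → R} {τ' : Fin m → R'} (hτ : ∀ j, (τ j, τ' j) ∈ S)
    (q : MvPolynomial (Fin m) ℤ) : (tev τ q, tev τ' q) ∈ S := by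
  simpa only [pev_C] using pair_pev_mem hτ (υ := (0 : R)) (υ' := (0 : R')) S.zero_mem
    (Polynomial.C q)

end Pair

section Hom

variable {P G : Type u} [CommRing P] [IsDomain P] [CommRing G] [IsDomain G] {ι : Type}

omit [IsDomain P] in
/-- The integer polynomials in finitely many elements form the subring they generate. -/
theorem closure_range_eq (b : ι → P) :
    Subring.closure (Set.range b) = (MvPolynomial.eval₂Hom (Int.castRingHom P) b).range := by
  refine le_antisymm (Subring.closure_le.2 ?_) ?_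
  · rintro _ ⟨i, rfl⟩
    exact ⟨MvPolynomial.X i, by simp⟩
  · rintro _ ⟨q, rfl⟩
    induction q using MvPolynomial.induction_on with
    | C a => simp
    | add p q hp hq => rw [map_add]; exact add_mem hp hq
    | mul_X p i hp =>
      rw [map_mul, MvPolynomial.eval₂Hom_X']
      exact mul_mem hp (Subring.subset_closure ⟨i, rfl⟩)

/-- A point of a presentation gives a ring map on the generated ring. -/
theorem exists_hom {m : ℕ} (t : Fin m → P) (υ : P) (μ : IPoly m) (h : MvPolynomial (Fin m) ℤ)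
    (Q : ι → IPoly m) (b : ι → P) (hmin : ∀ q, pev t υ q = 0 → μ ∣ q)
    (hQ : ∀ i, pev t υ (Q i) = tev t h * b i)
    (t' : Fin m → G) (υ' : G) (b' : ι → G) (hμ' : pev t' υ' μ = 0) (hh' : tev t' h ≠ 0)
    (hQ' : ∀ i, pev t' υ' (Q i) = tev t' h * b' i) (S : Subring (P × G))
    (hS : ∀ i, (b i, b' i) ∈ S) :
    ∃ φ : Subring.closure (Set.range b) →+* G,
      ∀ y : Subring.closure (Set.range b), ((y : P), φ y) ∈ S := by
  let ev := MvPolynomial.eval₂Hom (Int.castRingHom P) b
  let ev' := MvPolynomial.eval₂Hom (Int.castRingHom G) b'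
  have hker : RingHom.ker ev ≤ RingHom.ker ev' := fun q hq => by
    rw [RingHom.mem_ker] at hq ⊢
    obtain ⟨N, Qt, hN⟩ := exists_clear.{u} h Q q
    have h0 : pev t υ Qt = 0 := by
      rw [← hN P t υ b hQ, show MvPolynomial.eval₂Hom (Int.castRingHom P) b q = 0 from hq, mul_zero]
    obtain ⟨c, hc⟩ := hmin Qt h0
    have h1 : pev t' υ' Qt = 0 := by rw [hc, map_mul, hμ', zero_mul]
    rw [← hN G t' υ' b' hQ'] at h1
    exact (mul_eq_zero.1 h1).resolve_left (pow_ne_zero _ hh')
  let e : MvPolynomial ι ℤ →+* Subring.closure (Set.range b) :=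
    ev.codRestrict _ fun q => by rw [closure_range_eq]; exact ⟨q, rfl⟩
  have he : Function.Surjective e := fun y => by
    obtain ⟨q, hq⟩ : (y : P) ∈ ev.range := by rw [← closure_range_eq]; exact y.2
    exact ⟨q, Subtype.ext hq⟩
  have hker' : RingHom.ker e ≤ RingHom.ker ev' := fun q hq => hker (by
    rw [RingHom.mem_ker] at hq ⊢
    exact congrArg Subtype.val hq)
  refine ⟨RingHom.liftOfSurjective e he ⟨ev', hker'⟩, fun y => ?_⟩
  obtain ⟨q, rfl⟩ := he y
  rw [RingHom.liftOfSurjective_comp_apply]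
  change (ev q, ev' q) ∈ S
  induction q using MvPolynomial.induction_on with
  | C a =>
    have hp : (ev (MvPolynomial.C a), ev' (MvPolynomial.C a)) = (a : P × G) :=
      Prod.ext (by simp [ev]) (by simp [ev'])
    rw [hp]
    exact intCast_mem S a
  | add p q hp hq => rw [map_add, map_add]; exact add_mem hp hq
  | mul_X p i hp =>
    simp only [ev, ev', map_mul, MvPolynomial.eval₂Hom_X'] at hp ⊢
    exact mul_mem hp (hS i)

end Hom

end Vale.Agent.P202.Zero.Apx
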