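import Vale.Agent.P202.Zero.Approx.Step

/-!
# P202, equal characteristic zero: approximation of finitely generated subrings up to jets
-/

noncomputable section

namespace Vale.Agent.P202.Zero.Apx

open MvPowerSeries

universe u

variable {k : Type u} [Field k]

omit [Field k] in
/-- In no variables a series is its constant term. -/
theorem eq_C_of_fin_zero {R : Type*} [CommRing R] (f : MvPowerSeries (Fin 0) R) :
    f = C (constantCoeff f) := by
  ext β
  obtain rfl := Subsingleton.elim β 0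
  simp

theorem jetApprox_zero : JetApprox k 0 := by
  classical
  intro s M
  refine ⟨s.image constantCoeff, fun F _ ψ => ?_⟩
  have hmem : ∀ y : Subring.closure (s : Set (MvPowerSeries (Fin 0) k)),
      constantCoeff (y : MvPowerSeries (Fin 0) k) ∈
        Subring.closure (((s.image constantCoeff : Finset k)) : Set k) := fun y => by
    rw [Finset.coe_image, ← RingHom.map_closure]
    exact ⟨_, y.2, rfl⟩
  let c := (constantCoeff.comp (Subring.subtype
    (Subring.closure (s : Set (MvPowerSeries (Fin 0) k))))).codRestrict _ hmem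
  refine ⟨(MvPowerSeries.C.comp ψ).comp c, fun y => ?_⟩
  change ((y : MvPowerSeries (Fin 0) k), C (ψ (c y))) ∈ agree (Fin 0) ψ M
  have h := agree_C (σ := Fin 0) (M := M) ψ (c y)
  have : (C (c y : k) : MvPowerSeries (Fin 0) k) = y := (eq_C_of_fin_zero _).symm
  rwa [this] at h

variable [CharZero k]

theorem exists_regular_shift {n m : ℕ} {ι : Type} (t : Fin m → MvPowerSeries (Fin (n + 1)) k)
    (υ : MvPowerSeries (Fin (n + 1)) k) (b : ι → MvPowerSeries (Fin (n + 1)) k) (μ : IPoly m)
    (h : MvPolynomial (Fin m) ℤ) (Q : ι → IPoly m) (hμ : pev t υ μ = 0)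
    (hδ : pev t υ (Polynomial.derivative μ) ≠ 0) (hh : tev t h ≠ 0)
    (hQ : ∀ i, pev t υ (Q i) = tev t h * b i) :
    ∃ (c : Fin n → k) (t₁ : Fin m → MvPowerSeries (Fin (n + 1)) k)
      (υ₁ : MvPowerSeries (Fin (n + 1)) k), pev t₁ υ₁ μ = 0 ∧
        (∀ i, pev t₁ υ₁ (Q i) = tev t₁ h * subst (shear c) (b i)) ∧
          axis (tev t₁ h * pev t₁ υ₁ (Polynomial.derivative μ) ^ 2) ≠ 0 := by
  have : IsDomain (MvPowerSeries (Fin (n + 1)) k) := NoZeroDivisors.to_isDomain _
  obtain ⟨c, hc⟩ := exists_shear_regular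
    (mul_ne_zero hh (pow_ne_zero 2 hδ) : tev t h * pev t υ (Polynomial.derivative μ) ^ 2 ≠ 0)
  let σ : MvPowerSeries (Fin (n + 1)) k →+* MvPowerSeries (Fin (n + 1)) k :=
    (substAlgHom (hasSubst_shear c)).toRingHom
  have hσ : ∀ f, σ f = subst (shear c) f := fun f => substAlgHom_apply _ f
  refine ⟨c, fun j => σ (t j), σ υ, ?_, fun i => ?_, ?_⟩
  · rw [← map_pev, hμ, map_zero]
  · rw [← map_pev, ← map_tev, ← hσ, ← map_mul, hQ i]
  · rw [← hσ, map_mul, map_pow, map_tev, map_pev] at hc
    exact hc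

omit [CharZero k] in
theorem shift_back {n : ℕ} {F : Type u} [Field F] {A : Subring k} (ψ : A →+* F) (cA : Fin n → A)
    {M : ℕ} {b : MvPowerSeries (Fin (n + 1)) k} {b' : MvPowerSeries (Fin (n + 1)) F}
    (hb : (subst (shear fun j => (cA j : k)) b, b') ∈ agree (Fin (n + 1)) ψ M) :
    (b, subst (shear fun j => ψ (-cA j)) b') ∈ agree (Fin (n + 1)) ψ M := by
  have h1 := agree_subst (a := shear fun j => -cA j) (constantCoeff_shear _) hb
  simp only [map_shear] at h1
  rwa [subst_shear_shear (fun j => by simp)] at h1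

omit [CharZero k] in
theorem shift_point {n m : ℕ} {ι : Type} {F : Type u} [Field F] (e : Fin n → F)
    (t' : Fin m → MvPowerSeries (Fin (n + 1)) F) (υ' : MvPowerSeries (Fin (n + 1)) F)
    (b' : ι → MvPowerSeries (Fin (n + 1)) F) (μ : IPoly m) (h : MvPolynomial (Fin m) ℤ)
    (Q : ι → IPoly m) (hμ : pev t' υ' μ = 0) (hh : tev t' h ≠ 0)
    (hQ : ∀ i, pev t' υ' (Q i) = tev t' h * b' i) :
    pev (fun j => subst (shear e) (t' j)) (subst (shear e) υ') μ = 0 ∧
      tev (fun j => subst (shear e) (t' j)) h ≠ 0 ∧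
        ∀ i, pev (fun j => subst (shear e) (t' j)) (subst (shear e) υ') (Q i) =
          tev (fun j => subst (shear e) (t' j)) h * subst (shear e) (b' i) := by
  let τ : MvPowerSeries (Fin (n + 1)) F →+* MvPowerSeries (Fin (n + 1)) F :=
    (substAlgHom (hasSubst_shear e)).toRingHom
  have hτ : ∀ f, τ f = subst (shear e) f := fun f => substAlgHom_apply _ f
  simp only [← hτ]
  refine ⟨by rw [← map_pev, hμ, map_zero], fun h0 => hh ?_,
    fun i => by rw [← map_pev, ← map_tev, ← map_mul, hQ i]⟩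
  rw [← map_tev, hτ] at h0
  have h1 := congrArg (subst (shear fun j => -e j)) h0
  rw [subst_shear_shear (fun j => by simp)] at h1
  rwa [← coe_substAlgHom (hasSubst_shear _), map_zero] at h1

theorem approx_range {n : ℕ} (IH : JetApprox k n) {ι : Type} [Finite ι]
    (b : ι → MvPowerSeries (Fin (n + 1)) k) (M : ℕ) :
    ∃ T : Finset k, ∀ (F : Type u) [Field F] (ψ : Subring.closure (T : Set k) →+* F),
      ∃ φ : Subring.closure (Set.range b) →+* MvPowerSeries (Fin (n + 1)) F,
        ∀ y : Subring.closure (Set.range b),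
          ((y : MvPowerSeries (Fin (n + 1)) k), φ y) ∈ agree (Fin (n + 1)) ψ M := by
  classical
  have : CharZero (MvPowerSeries (Fin (n + 1)) k) :=
    charZero_of_injective_ringHom (C_injective (σ := Fin (n + 1)) (R := k))
  have : IsDomain (MvPowerSeries (Fin (n + 1)) k) := NoZeroDivisors.to_isDomain _
  obtain ⟨m, t, υ, μ, h, Q, -, hμ, hδ, hh, hmin, hQ⟩ := exists_presentation b
  obtain ⟨c, t₁, υ₁, hμ₁, hQ₁, hreg⟩ := exists_regular_shift t υ b μ h Q hμ hδ hh hQ
  obtain ⟨T₀, hT₀⟩ := approx_regular IH t₁ υ₁ (fun i => subst (shear c) (b i)) μ h Q hμ₁ hQ₁ hreg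
    (M + 1) (Nat.succ_pos M)
  refine ⟨T₀ ∪ Finset.univ.image c, fun F _ ψ => ?_⟩
  have : IsDomain (MvPowerSeries (Fin (n + 1)) F) := NoZeroDivisors.to_isDomain _
  have hle : Subring.closure (T₀ : Set k) ≤
      Subring.closure ((T₀ ∪ Finset.univ.image c : Finset k) : Set k) :=
    Subring.closure_mono (by intro x hx; simp [Finset.mem_coe.1 hx])
  obtain ⟨t', υ', b', hb', hμ', hh', hQ'⟩ := hT₀ F (ψ.comp (Subring.inclusion hle))
  let cA : Fin n → Subring.closure ((T₀ ∪ Finset.univ.image c : Finset k) : Set k) := fun j =>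
    ⟨c j, Subring.subset_closure (by simp)⟩
  obtain ⟨h1, h2, h3⟩ := shift_point (fun j => ψ (-cA j)) t' υ' b' μ h Q hμ' hh' hQ'
  exact exists_hom t υ μ h Q b hmin hQ _ _ _ h1 h2 h3 (agree (Fin (n + 1)) ψ M) fun i =>
    shift_back ψ cA (agree_mono (Nat.le_succ M) (agree_incl hle (hb' i)))

theorem jetApprox_succ {n : ℕ} (IH : JetApprox k n) : JetApprox k (n + 1) := by
  intro s M
  have h := approx_range IH (fun i : Fin s.card => (s.equivFin.symm i : MvPowerSeries _ k)) M
  have hb : Set.range (fun i : Fin s.card => (s.equivFin.symm i : MvPowerSeries (Fin (n + 1)) k)) =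
      (s : Set (MvPowerSeries (Fin (n + 1)) k)) := by
    ext x
    constructor
    · rintro ⟨i, rfl⟩
      exact (s.equivFin.symm i).2
    · intro hx
      exact ⟨s.equivFin ⟨x, hx⟩, by simp⟩
  rwa [hb] at h

/-- Approximation up to jets in any number of variables. -/
theorem jetApprox : ∀ n, JetApprox k n
  | 0 => jetApprox_zero
  | n + 1 => jetApprox_succ (jetApprox n)

end Vale.Agent.P202.Zero.Apx
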