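import Vale.Agent.P202.Zero.Approx.Defs
import Vale.Agent.P202.Zero.Approx.Jets
import Vale.Agent.P202.Zero.Approx.Automorph

/-!
# P202, equal characteristic zero: approximation keeping the variables
-/

noncomputable section

namespace Vale.Agent.P202.Zero

open MvPowerSeries Apx

universe u

/-- Finitely generated rings of power series over a field of characteristic zero approximate. -/
theorem approx (k : Type u) [Field k] [CharZero k] : ∀ n, ApproxAt k n := by
  classical
  intro n s M
  set s' : Finset (MvPowerSeries (Fin n) k) := s ∪ Finset.univ.image X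
  obtain ⟨T, hT⟩ := jetApprox (k := k) n s' (M + 2)
  refine ⟨T, fun D hD κ _ ψ => ?_⟩
  have hTD : Subring.closure (T : Set k) ≤ D := Subring.closure_le.2 hD
  obtain ⟨φ₀, hφ₀⟩ := hT κ (ψ.comp (Subring.inclusion hTD))
  have hgen : genRing s ≤ Subring.closure (s' : Set (MvPowerSeries (Fin n) k)) := by
    refine Subring.closure_mono ?_
    rintro x (⟨i, rfl⟩ | hx)
    · simp [s']
    · simp [s', Finset.mem_coe.1 hx]
  have hX : ∀ i, (X i : MvPowerSeries (Fin n) k) ∈
      Subring.closure (s' : Set (MvPowerSeries (Fin n) k)) := fun i =>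
    Subring.subset_closure (by simp [s'])
  let a : Fin n → MvPowerSeries (Fin n) κ := fun i => φ₀ ⟨X i, hX i⟩
  have haM : ∀ i, LowEq (M + 2) (a i) (X i) := fun i β hβ => by
    have h := (agree (Fin n) ψ (M + 2)).sub_mem (agree_incl hTD (hφ₀ ⟨X i, hX i⟩)) (agree_X ψ i)
    rw [Prod.mk_sub_mk] at h
    have := agree_coeff h hβ 0 (by simp)
    rwa [map_zero, map_sub, sub_eq_zero] at this
  have ha2 : ∀ i, LowEq 2 (a i) (X i) := fun i => (haM i).mono (by omega)
  have ha0 := constantCoeff_eq_zero_of_lowEq ha2
  let θ : MvPowerSeries (Fin n) κ →+* MvPowerSeries (Fin n) κ :=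
    (substAlgHom (hasSubst_of_constantCoeff_zero ha0)).toRingHom
  have hθ : ∀ f, θ f = subst a f := fun f => substAlgHom_apply _ f
  have hbij : Function.Bijective θ := by
    rw [show (θ : _ → _) = subst a from funext hθ]
    exact ⟨subst_injective ha2, subst_surjective ha2⟩
  let θe := RingEquiv.ofBijective θ hbij
  refine ⟨(θe.symm : _ →+* _).comp (φ₀.comp (Subring.inclusion hgen)), fun i h => ?_,
    fun y h _ e he => ?_⟩
  · refine hbij.1 ((θe.apply_symm_apply _).trans ?_)
    rw [hθ, subst_X (hasSubst_of_constantCoeff_zero ha0)]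
    rfl
  · set f := φ₀ (Subring.inclusion hgen ⟨y, h⟩) with hf
    have hyf : (y, f) ∈ agree (Fin n) ψ (M + 2) := agree_incl hTD (hφ₀ (Subring.inclusion hgen ⟨y, h⟩))
    obtain ⟨z, hz1, hz2⟩ := agree_def.1 hyf
    have hmem : coeff e y ∈ D := by
      rw [← hz1 e (by omega), coeff_map]
      exact (coeff e z).2
    refine ⟨hmem, ?_⟩
    rw [← agree_coeff hyf (β := e) (by omega) ⟨_, hmem⟩ rfl]
    set g := θe.symm f
    change coeff e f = coeff e g
    have hg : subst a g = f := (hθ g).symm.trans (θe.apply_symm_apply f)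
    rw [← hg, lowEq_subst_left ha0 (fun i => constantCoeff_X i) (fun i => (haM i).mono le_self_add) g e
      he, subst_self]
    rfl

end Vale.Agent.P202.Zero
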