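import Mathlib

/-!
# P202, equal characteristic zero: Newton's lemma in one variable

If `g z` lies in `g' z ^ 2` times an ideal `J` of a complete local ring, then `g` has a root in
`z + J`.
-/

noncomputable section

namespace Vale.Agent.P202.Zero

open Polynomial IsLocalRing

variable {R : Type*} [CommRing R] [IsLocalRing R] [IsAdicComplete (maximalIdeal R) R]

/-- A small constant term and linear coefficient one: there is a root divisible by the constant. -/
theorem exists_root_of_linear (j : R) (hj : j ∈ maximalIdeal R) (q : R[X]) :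
    ∃ u : R, j + (-j * u) + (-j * u) ^ 2 * q.eval (-j * u) = 0 := by
  classical
  have := IsAdicComplete.henselianRing R (maximalIdeal R)
  set d := q.natDegree
  set rest : R[X] := C j * ∑ l ∈ Finset.range (d + 1), C (q.coeff l * (-j) ^ l) * X ^ (d - l)
    with hrest
  set f : R[X] := X ^ (d + 2) + (-X ^ (d + 1) + rest) with hf
  have hdeg : (-X ^ (d + 1) + rest).degree < ((d + 2 : ℕ) : WithBot ℕ) := by
    refine lt_of_le_of_lt (degree_add_le _ _) (max_lt ?_ ?_)
    · rw [degree_neg, degree_X_pow]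
      exact_mod_cast Nat.lt_succ_self _
    · refine lt_of_le_of_lt (degree_mul_le _ _) ?_
      refine lt_of_le_of_lt (add_le_add degree_C_le
        (show (∑ l ∈ Finset.range (d + 1), C (q.coeff l * (-j) ^ l) * X ^ (d - l)).degree ≤
          (d : WithBot ℕ) from (degree_sum_le _ _).trans (Finset.sup_le fun l _ =>
            (degree_C_mul_X_pow_le _ _).trans (by exact_mod_cast Nat.sub_le d l)))) ?_
      rw [zero_add]
      exact_mod_cast Nat.lt_add_of_pos_right (by norm_num)
  have hmonic : f.Monic := monic_X_pow_add hdeg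
  have hrev : ∀ a : R, rest.eval a = j * ∑ l ∈ Finset.range (d + 1),
      q.coeff l * (-j) ^ l * a ^ (d - l) := fun a => by
    simp [hrest, eval_finsetSum]
  have h1 : f.eval 1 ∈ maximalIdeal R := by
    simp only [hf, eval_add, eval_pow, eval_X, eval_neg, one_pow, hrev, add_neg_cancel_left]
    exact Ideal.mul_mem_right _ _ hj
  have h2 : IsUnit (Ideal.Quotient.mk (maximalIdeal R) (f.derivative.eval 1)) := by
    have e : f.derivative.eval 1 = 1 + j *
        (∑ l ∈ Finset.range (d + 1), C (q.coeff l * (-j) ^ l) * X ^ (d - l)).derivative.eval 1 := by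
      simp only [hf, hrest, derivative_add, derivative_neg, derivative_X_pow, derivative_C_mul,
        eval_add, eval_neg, eval_mul, eval_C, eval_pow, eval_X, one_pow, mul_one]
      push_cast
      ring
    rw [e, map_add, map_mul, (Ideal.Quotient.eq_zero_iff_mem).2 hj, zero_mul, add_zero, map_one]
    exact isUnit_one
  obtain ⟨a, ha, ha1⟩ := HenselianRing.is_henselian f hmonic 1 h1 h2
  have hunit : IsUnit a := by
    by_contra hu
    have h := (maximalIdeal R).sub_mem ((mem_maximalIdeal a).2 hu) ha1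
    rw [sub_sub_cancel] at h
    exact (maximalIdeal.isMaximal R).ne_top ((Ideal.eq_top_iff_one _).2 h)
  obtain ⟨v, rfl⟩ := hunit
  refine ⟨↑v⁻¹, (v ^ (d + 2)).isUnit.mul_right_eq_zero.1 ?_⟩
  rw [IsRoot, hf, eval_add, eval_add, eval_neg, eval_pow, eval_pow, eval_X, hrev] at ha
  have hpow : ∀ l ≤ d, ((v : R) ^ (d - l)) = (v : R) ^ d * ((↑v⁻¹ : R)) ^ l := by
    intro l hl
    calc (v : R) ^ (d - l) = (v : R) ^ (d - l) * ((v : R) * ↑v⁻¹) ^ l := by simp
      _ = (v : R) ^ (d - l + l) * (↑v⁻¹ : R) ^ l := by rw [mul_pow, pow_add, mul_assoc]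
      _ = _ := by rw [Nat.sub_add_cancel hl]
  rw [Finset.sum_congr rfl fun l hl => by
    rw [hpow l (Nat.lt_succ_iff.1 (Finset.mem_range.1 hl))]] at ha
  rw [eval_eq_sum_range]
  simp only [Units.val_pow_eq_pow_val]
  have hv : (v : R) * ↑v⁻¹ = 1 := by simp
  calc (v : R) ^ (d + 2) * (j + -j * ↑v⁻¹ +
        (-j * ↑v⁻¹) ^ 2 * ∑ l ∈ Finset.range (d + 1), q.coeff l * (-j * ↑v⁻¹) ^ l)
      = j * ((v : R) ^ (d + 2) - (v : R) ^ (d + 1) * ((v : R) * ↑v⁻¹) +
          ((v : R) * ↑v⁻¹) ^ 2 * (j * ∑ l ∈ Finset.range (d + 1),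
            q.coeff l * (-j) ^ l * ((v : R) ^ d * (↑v⁻¹ : R) ^ l))) := by
        simp only [mul_pow, Finset.mul_sum, mul_add, mul_sub]
        congr 1
        · ring
        · refine Finset.sum_congr rfl fun l _ => ?_
          ring
    _ = 0 := by
      rw [hv, one_pow, one_mul, mul_one, sub_eq_add_neg, add_assoc, ha, mul_zero]

/-- Newton's lemma. -/
theorem newton {J : Ideal R} (hJ : J ≤ maximalIdeal R) (g : R[X]) (z : R)
    (h : g.eval z ∈ Ideal.span {g.derivative.eval z ^ 2} * J) :
    ∃ z' : R, g.eval z' = 0 ∧ z' - z ∈ J := by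
  rw [Ideal.mem_span_singleton_mul] at h
  obtain ⟨j, hj, hgz⟩ := h
  set D := g.derivative.eval z
  set q : R[X] := ((taylor z g).divX).divX
  have hexp : ∀ x, g.eval (x + z) = g.eval z + D * x + x ^ 2 * q.eval x := by
    intro x
    rw [← taylor_eval]
    conv_lhs =>
      rw [← divX_mul_X_add (taylor z g), ← divX_mul_X_add (taylor z g).divX]
    simp only [eval_add, eval_mul, eval_X, eval_C, coeff_divX, taylor_coeff_zero, zero_add,
      taylor_coeff_one]
    ring
  obtain ⟨u, hu⟩ := exists_root_of_linear j (hJ hj) (q.comp (C D * X))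
  simp only [eval_comp, eval_mul, eval_C, eval_X] at hu
  refine ⟨D * (-j * u) + z, ?_, ?_⟩
  · rw [hexp, ← hgz]
    linear_combination D ^ 2 * hu
  · rw [add_sub_cancel_right]
    exact J.mul_mem_left _ (J.mul_mem_right _ (J.neg_mem hj))

end Vale.Agent.P202.Zero
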