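import Mathlib

/-!
# P202, equal characteristic zero: one-equation presentation of a finitely generated domain

A finitely generated domain of characteristic zero is, after inverting one element `h` of a
polynomial subring `ℤ[t]`, generated by a root `u` of a monic minimal equation over `ℤ[t]`.
-/

noncomputable section

namespace Vale.Agent.P202.Zero

open Polynomial

universe u

variable {A : Type u} [CommRing A] {N : ℕ}

/-- Evaluation of `ℤ[t][Y]` at the values of `t` and a point. -/
def evalAt (T : Finset (Fin N)) {B : Type*} [CommRing B] (t : T → B) (y : B) :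
    (MvPolynomial T ℤ)[X] →+* B :=
  Polynomial.eval₂RingHom (MvPolynomial.aeval t).toRingHom y

theorem evalAt_C (T : Finset (Fin N)) {B : Type*} [CommRing B] (t : T → B) (y : B)
    (a : MvPolynomial T ℤ) : evalAt T t y (C a) = MvPolynomial.aeval t a := by
  simp [evalAt]

/-- The presentation. -/
structure Param (w : Fin N → A) (T : Finset (Fin N)) where
  indep : AlgebraicIndependent ℤ (fun i : T => w i)
  m : (MvPolynomial T ℤ)[X]
  monic : m.Monic
  U : MvPolynomial (Fin N) ℤ
  h : MvPolynomial T ℤ
  P : Fin N → (MvPolynomial T ℤ)[X]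
  root : evalAt T (fun i => w i) (MvPolynomial.aeval w U) m = 0
  deriv_ne : evalAt T (fun i => w i) (MvPolynomial.aeval w U) (derivative m) ≠ 0
  h_ne : MvPolynomial.aeval (fun i : T => w i) h ≠ 0
  eqn : ∀ i, MvPolynomial.aeval (fun i : T => w i) h * w i =
    evalAt T (fun i => w i) (MvPolynomial.aeval w U) (P i)
  P_mem : ∀ i : T, P i = C (h * MvPolynomial.X i)
  minimal : ∀ p, evalAt T (fun i => w i) (MvPolynomial.aeval w U) p = 0 → m ∣ p

/-- Clearing the denominator `h` in a substitution. -/
theorem exists_homogenized {R : Type*} [CommRing R] (h : R) (P : Fin N → R)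
    (G : MvPolynomial (Fin N) ℤ) : ∃ (d : ℕ) (Q : R), ∀ (B : Type u) [CommRing B] (f : R →+* B)
      (x : Fin N → B), (∀ i, f h * x i = f (P i)) → f Q = f h ^ d * MvPolynomial.aeval x G := by
  induction G using MvPolynomial.induction_on with
  | C a =>
    refine ⟨0, (a : R), fun B _ f x _ => ?_⟩
    simp
  | add G G' hG hG' =>
    obtain ⟨d, Q, hQ⟩ := hG
    obtain ⟨d', Q', hQ'⟩ := hG'
    refine ⟨d + d', h ^ d' * Q + h ^ d * Q', fun B _ f x hx => ?_⟩
    rw [map_add, map_mul, map_mul, hQ B f x hx, hQ' B f x hx, map_pow, map_pow, map_add]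
    ring
  | mul_X G i hG =>
    obtain ⟨d, Q, hQ⟩ := hG
    refine ⟨d + 1, Q * P i, fun B _ f x hx => ?_⟩
    rw [map_mul, hQ B f x hx, ← hx i, map_mul, MvPolynomial.aeval_X]
    ring

/-- Relations of `w` carry over to any solution of the presentation. -/
theorem Param.relation {w : Fin N → A} {T : Finset (Fin N)} (p : Param w T) {B : Type u}
    [CommRing B] [IsDomain B] (t' : T → B) (u' : B) (w' : Fin N → B)
    (hm : evalAt T t' u' p.m = 0) (hh : MvPolynomial.aeval t' p.h ≠ 0)
    (he : ∀ i, MvPolynomial.aeval t' p.h * w' i = evalAt T t' u' (p.P i))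
    (G : MvPolynomial (Fin N) ℤ) (hG : MvPolynomial.aeval w G = 0) :
    MvPolynomial.aeval w' G = 0 := by
  obtain ⟨d, Q, hQ⟩ := exists_homogenized.{u} (C p.h) p.P G
  have h0 := hQ A (evalAt T (fun i => w i) (MvPolynomial.aeval w p.U)) w
    (fun i => by rw [evalAt_C]; exact p.eqn i)
  rw [hG, mul_zero] at h0
  obtain ⟨r, rfl⟩ := p.minimal Q h0
  have h1 := hQ B (evalAt T t' u') w' (fun i => by rw [evalAt_C]; exact he i)
  rw [map_mul, hm, zero_mul, evalAt_C] at h1
  exact (mul_eq_zero.1 h1.symm).resolve_left (pow_ne_zero d hh)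

/-- The generated ring maps to any solution of the presentation, extending it. -/
theorem Param.exists_hom {w : Fin N → A} {T : Finset (Fin N)} (p : Param w T) {B : Type u}
    [CommRing B] [IsDomain B] (t' : T → B) (u' : B) (w' : Fin N → B)
    (hm : evalAt T t' u' p.m = 0) (hh : MvPolynomial.aeval t' p.h ≠ 0)
    (he : ∀ i, MvPolynomial.aeval t' p.h * w' i = evalAt T t' u' (p.P i)) :
    (∀ i : T, w' i = t' i) ∧ MvPolynomial.aeval w' p.U = u' ∧
    ∃ φ : Subring.closure (Set.range w) →+* B,
      ∀ i, φ ⟨w i, Subring.subset_closure ⟨i, rfl⟩⟩ = w' i := by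
  classical
  refine ⟨fun i => ?_, ?_, ?_⟩
  · have h1 := he i
    rw [p.P_mem i, evalAt_C, map_mul, MvPolynomial.aeval_X] at h1
    exact mul_left_cancel₀ hh h1
  · obtain ⟨d, Q, hQ⟩ := exists_homogenized.{u} (C p.h) p.P p.U
    have h0 := hQ A (evalAt T (fun i => w i) (MvPolynomial.aeval w p.U)) w
      (fun i => by rw [evalAt_C]; exact p.eqn i)
    have h2 : evalAt T (fun i => w i) (MvPolynomial.aeval w p.U) (Q - C p.h ^ d * X) = 0 := by
      rw [map_sub, h0, map_mul, map_pow]
      simp [evalAt]
    obtain ⟨r, hr⟩ := p.minimal _ h2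
    have h1 := hQ B (evalAt T t' u') w' (fun i => by rw [evalAt_C]; exact he i)
    have h3 : evalAt T t' u' (Q - C p.h ^ d * X) = 0 := by rw [hr, map_mul, hm, zero_mul]
    rw [map_sub, map_mul, h1, map_pow, evalAt_C,
      show evalAt T t' u' X = u' by simp [evalAt], sub_eq_zero] at h3
    exact mul_left_cancel₀ (pow_ne_zero d hh) h3
  · have hmem : ∀ x : Subring.closure (Set.range w), ∃ G : MvPolynomial (Fin N) ℤ,
        MvPolynomial.aeval w G = x.1 := by
      intro x
      have hle : Subring.closure (Set.range w) ≤ (MvPolynomial.aeval (R := ℤ) w).toRingHom.range :=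
        Subring.closure_le.2 (by
          rintro _ ⟨i, rfl⟩
          exact ⟨MvPolynomial.X i, MvPolynomial.aeval_X w i⟩)
      exact hle x.2
    choose G hG using hmem
    have key : ∀ (x : Subring.closure (Set.range w)) (H : MvPolynomial (Fin N) ℤ),
        MvPolynomial.aeval w H = x.1 → MvPolynomial.aeval w' (G x) = MvPolynomial.aeval w' H := by
      intro x H hH
      have := p.relation t' u' w' hm hh he (G x - H) (by rw [map_sub, hG, hH, sub_self])
      rwa [map_sub, sub_eq_zero] at this
    refine ⟨{ toFun := fun x => MvPolynomial.aeval w' (G x)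
              map_one' := (key 1 1 (by simp)).trans (map_one _)
              map_mul' := fun x y => (key (x * y) (G x * G y) (by simp [hG])).trans (map_mul _ _ _)
              map_zero' := (key 0 0 (by simp)).trans (map_zero _)
              map_add' := fun x y =>
                (key (x + y) (G x + G y) (by simp [hG])).trans (map_add _ _ _) }, fun i => ?_⟩
    exact (key _ (MvPolynomial.X i) (MvPolynomial.aeval_X w i)).trans (MvPolynomial.aeval_X w' i)

open scoped IntermediateField in
/-- Every finite family has a presentation over any independent subfamily. -/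
theorem exists_param [IsDomain A] [CharZero A] (w : Fin N → A) (S : Finset (Fin N))
    (hS : AlgebraicIndependent ℤ (fun i : S => w i)) :
    ∃ T : Finset (Fin N), S ⊆ T ∧ Nonempty (Param w T) := by
  classical
  obtain ⟨T, hT, hmax⟩ := Finset.exists_max_image
    ((Finset.univ : Finset (Finset (Fin N))).filter fun T =>
      S ⊆ T ∧ AlgebraicIndependent ℤ (fun i : T => w i)) Finset.card
    ⟨S, by simp [hS]⟩
  obtain ⟨-, hST, hind⟩ := Finset.mem_filter.1 hT
  refine ⟨T, hST, ?_⟩
  set t : T → A := fun i => w i with ht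
  let algA : Algebra (MvPolynomial T ℤ) A := (MvPolynomial.aeval t).toRingHom.toAlgebra
  have halgA : ∀ a, algebraMap (MvPolynomial T ℤ) A a = MvPolynomial.aeval t a := fun a => rfl
  have hinjA : Function.Injective (algebraMap (MvPolynomial T ℤ) A) := hind
  -- the fields
  let L := FractionRing A
  have hinjL : Function.Injective (algebraMap (MvPolynomial T ℤ) L) := by
    rw [IsScalarTower.algebraMap_eq (MvPolynomial T ℤ) A L]
    exact (IsFractionRing.injective A L).comp hinjA
  have : FaithfulSMul (MvPolynomial T ℤ) A :=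
    (faithfulSMul_iff_algebraMap_injective _ _).2 hinjA
  have : Module.IsTorsionFree (MvPolynomial T ℤ) A :=
    Module.isTorsionFree_iff_algebraMap_injective.2 hinjA
  have : FaithfulSMul (MvPolynomial T ℤ) L :=
    (faithfulSMul_iff_algebraMap_injective _ _).2 hinjL
  let K := FractionRing (MvPolynomial T ℤ)
  let algK : Algebra K L := FractionRing.liftAlgebra (MvPolynomial T ℤ) L
  have : IsScalarTower (MvPolynomial T ℤ) K L :=
    FractionRing.isScalarTower_liftAlgebra (MvPolynomial T ℤ) L
  have : CharZero K := charZero_of_injective_algebraMap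
    (IsFractionRing.injective (MvPolynomial T ℤ) K)
  -- algebraicity
  have halg : ∀ i, IsAlgebraic (MvPolynomial T ℤ) (w i) := by
    intro i
    by_cases hi : i ∈ T
    · have := isAlgebraic_algebraMap (R := MvPolynomial T ℤ) (A := A) (MvPolynomial.X ⟨i, hi⟩)
      rwa [halgA, MvPolynomial.aeval_X] at this
    have hnot : ¬ AlgebraicIndepOn ℤ w ((insert i T : Finset (Fin N)) : Set (Fin N)) := fun h =>
      by
        have := hmax (insert i T)
          (Finset.mem_filter.2 ⟨Finset.mem_univ _, hST.trans (Finset.subset_insert i T), h⟩)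
        rw [Finset.card_insert_of_notMem hi] at this
        omega
    rw [Finset.coe_insert, AlgebraicIndepOn.insert_iff (by simpa using hi)] at hnot
    have htr : ¬ Transcendental (Algebra.adjoin ℤ (w '' (T : Set (Fin N)))) (w i) :=
      fun h => hnot ⟨hind, h⟩
    rw [transcendental_iff] at htr
    push Not at htr
    obtain ⟨q, hq, hq0⟩ := htr
    have hmem : ∀ a : MvPolynomial T ℤ,
        MvPolynomial.aeval t a ∈ Algebra.adjoin ℤ (w '' (T : Set (Fin N))) := by
      intro a
      have hrange : Set.range t = w '' (T : Set (Fin N)) := by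
        ext x
        simp [t]
      rw [← hrange, Algebra.adjoin_range_eq_range_aeval]
      exact ⟨a, rfl⟩
    let g : MvPolynomial T ℤ →+* Algebra.adjoin ℤ (w '' (T : Set (Fin N))) :=
      (MvPolynomial.aeval t).toRingHom.codRestrict _ hmem
    have hg : Function.Surjective g := by
      rintro ⟨x, hx⟩
      have hrange : Set.range t = w '' (T : Set (Fin N)) := by
        ext x
        simp [t]
      rw [← hrange, Algebra.adjoin_range_eq_range_aeval] at hx
      obtain ⟨a, ha⟩ := hx
      exact ⟨a, Subtype.ext ha⟩
    obtain ⟨q', rfl⟩ := Polynomial.map_surjective g hg q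
    refine ⟨q', fun e => hq0 (by rw [e, Polynomial.map_zero]), ?_⟩
    rw [Polynomial.aeval_def, Polynomial.eval₂_map] at hq
    exact hq
  have halgK : ∀ x ∈ Set.range (fun i => algebraMap A L (w i)), IsAlgebraic K x := by
    rintro _ ⟨i, rfl⟩
    exact ((halg i).algebraMap (A := L)).extendScalars
      (IsFractionRing.injective (MvPolynomial T ℤ) K)
  set E := IntermediateField.adjoin K (Set.range fun i => algebraMap A L (w i)) with hE
  have : FiniteDimensional K E :=
    IntermediateField.finiteDimensional_adjoin fun x hx => (halgK x hx).isIntegral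
  obtain ⟨α, hα⟩ := Field.exists_primitive_element K E
  -- elements of the generated field with a denominator in the polynomial ring
  have hfrac : ∀ x ∈ Algebra.adjoin K (Set.range fun i => algebraMap A L (w i)),
      ∃ (r : MvPolynomial T ℤ) (U : MvPolynomial (Fin N) ℤ), r ≠ 0 ∧
        algebraMap (MvPolynomial T ℤ) L r * x = algebraMap A L (MvPolynomial.aeval w U) := by
    intro x hx
    induction hx using Algebra.adjoin_induction with
    | mem x hx =>
      obtain ⟨i, rfl⟩ := hx
      exact ⟨1, MvPolynomial.X i, one_ne_zero, by simp⟩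
    | algebraMap c =>
      obtain ⟨⟨a, b⟩, hab⟩ := IsLocalization.surj (nonZeroDivisors (MvPolynomial T ℤ)) c
      refine ⟨b, MvPolynomial.rename Subtype.val a, nonZeroDivisors.ne_zero b.2, ?_⟩
      have := congrArg (algebraMap K L) hab
      simp only [map_mul, ← IsScalarTower.algebraMap_apply] at this
      rw [mul_comm, this, MvPolynomial.aeval_rename]
      exact IsScalarTower.algebraMap_apply (MvPolynomial T ℤ) A L a
    | add x y _ _ hx hy =>
      obtain ⟨r, U, hr, hU⟩ := hx
      obtain ⟨r', U', hr', hU'⟩ := hy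
      refine ⟨r * r', MvPolynomial.rename Subtype.val r' * U + MvPolynomial.rename Subtype.val r * U',
        mul_ne_zero hr hr', ?_⟩
      have e : ∀ a : MvPolynomial T ℤ, algebraMap A L (MvPolynomial.aeval w
          (MvPolynomial.rename Subtype.val a)) = algebraMap (MvPolynomial T ℤ) L a := fun a => by
        rw [MvPolynomial.aeval_rename]
        exact (IsScalarTower.algebraMap_apply (MvPolynomial T ℤ) A L a).symm
      simp only [map_add, map_mul, e, ← hU, ← hU']
      ring
    | mul x y _ _ hx hy =>
      obtain ⟨r, U, hr, hU⟩ := hx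
      obtain ⟨r', U', hr', hU'⟩ := hy
      exact ⟨r * r', U * U', mul_ne_zero hr hr', by
        rw [map_mul, map_mul, map_mul, ← hU, ← hU']; ring⟩
  have hEadj : E.toSubalgebra = Algebra.adjoin K (Set.range fun i => algebraMap A L (w i)) :=
    IntermediateField.adjoin_toSubalgebra_of_isAlgebraic halgK
  obtain ⟨r, U₀, hr, hU₀⟩ := hfrac (α : L) (hEadj ▸ α.2)
  -- an integral multiple
  have hαalg : IsAlgebraic (MvPolynomial T ℤ) (algebraMap A L (MvPolynomial.aeval w U₀)) := by
    refine (IsFractionRing.isAlgebraic_iff (MvPolynomial T ℤ) K L).2 ?_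
    rw [← hU₀, IsScalarTower.algebraMap_apply (MvPolynomial T ℤ) K L]
    exact (isAlgebraic_algebraMap _).mul ((IsAlgebraic.of_finite K α).algebraMap (A := L))
  obtain ⟨y, hy, hint⟩ := hαalg.exists_integral_multiple
  set U := MvPolynomial.rename Subtype.val y * U₀ with hU
  set u := MvPolynomial.aeval w U with hu
  have hyU : algebraMap A L u = y • algebraMap A L (MvPolynomial.aeval w U₀) := by
    rw [hu, hU, map_mul, map_mul, MvPolynomial.aeval_rename, Algebra.smul_def]
    rw [show MvPolynomial.aeval (w ∘ Subtype.val) y = algebraMap (MvPolynomial T ℤ) A y from rfl,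
      ← IsScalarTower.algebraMap_apply]
  have huint : IsIntegral (MvPolynomial T ℤ) u := by
    rw [← isIntegral_algebraMap_iff (IsFractionRing.injective A L), hyU]
    exact hint
  -- everything is a polynomial in `u` over the fraction field
  have hgen : ∀ i, algebraMap A L (w i) ∈ Algebra.adjoin K {algebraMap A L u} := by
    intro i
    have hmem : algebraMap A L (w i) ∈ E := IntermediateField.subset_adjoin _ _ ⟨i, rfl⟩
    have h1 : (⟨_, hmem⟩ : E) ∈ K⟮α⟯ := hα ▸ IntermediateField.mem_top
    rw [← IntermediateField.mem_toSubalgebra,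
      IntermediateField.adjoin_simple_toSubalgebra_of_isAlgebraic (IsAlgebraic.of_finite K α)] at h1
    have h2 : algebraMap A L (w i) ∈ (Algebra.adjoin K ({α} : Set E)).map E.val :=
      ⟨_, h1, rfl⟩
    rw [AlgHom.map_adjoin, Set.image_singleton] at h2
    refine Algebra.adjoin_le ?_ h2
    rw [Set.singleton_subset_iff]
    set c := algebraMap (MvPolynomial T ℤ) K (y * r) with hc
    have hc0 : c ≠ 0 := by
      rw [hc, map_ne_zero_iff _ (IsFractionRing.injective (MvPolynomial T ℤ) K)]
      exact mul_ne_zero hy hr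
    have hcu : algebraMap K L c * (α : L) = algebraMap A L u := by
      rw [hc, ← IsScalarTower.algebraMap_apply, map_mul, mul_assoc, hU₀, hyU, Algebra.smul_def]
    show (α : L) ∈ Algebra.adjoin K {algebraMap A L u}
    rw [show (α : L) = algebraMap K L c⁻¹ * algebraMap A L u by
      rw [← hcu, ← mul_assoc, ← map_mul, inv_mul_cancel₀ hc0, map_one, one_mul]]
    exact mul_mem (Subalgebra.algebraMap_mem _ _) (Algebra.subset_adjoin rfl)
  have hden : ∀ i, ∃ b : MvPolynomial T ℤ, ∃ Q : (MvPolynomial T ℤ)[X], b ≠ 0 ∧
      algebraMap (MvPolynomial T ℤ) A b * w i = Polynomial.aeval u Q := by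
    intro i
    have h := hgen i
    rw [Algebra.adjoin_singleton_eq_range_aeval] at h
    obtain ⟨q, hq⟩ := h
    obtain ⟨b, hb, hbq⟩ := IsLocalization.integerNormalization_spec
      (nonZeroDivisors (MvPolynomial T ℤ)) q
    refine ⟨b, IsLocalization.integerNormalization (nonZeroDivisors (MvPolynomial T ℤ)) q,
      nonZeroDivisors.ne_zero hb, IsFractionRing.injective A L ?_⟩
    rw [← Polynomial.aeval_algebraMap_apply, ← Polynomial.aeval_map_algebraMap K, hbq,
      map_mul, ← IsScalarTower.algebraMap_apply]
    rw [← algebraMap_smul K b q, map_smul, Algebra.smul_def, ← IsScalarTower.algebraMap_apply]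
    exact congrArg _ hq.symm
  choose b Q hb hQ using hden
  set h := ∏ i, b i with hh
  let P : Fin N → (MvPolynomial T ℤ)[X] := fun i =>
    if hi : i ∈ T then Polynomial.C (h * MvPolynomial.X ⟨i, hi⟩)
    else Polynomial.C (∏ j ∈ Finset.univ.erase i, b j) * Q i
  have heval : ∀ p, evalAt T t u p = Polynomial.aeval u p := fun p => rfl
  refine ⟨⟨hind, minpoly (MvPolynomial T ℤ) u, minpoly.monic huint, U, h, P, ?_, ?_, ?_,
    fun i => ?_, fun i => dif_pos i.2, fun p hp => ?_⟩⟩
  · rw [heval, minpoly.aeval]
  · rw [heval]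
    intro hd
    have hdvd := minpoly.isIntegrallyClosed_dvd huint hd
    have hne : derivative (minpoly (MvPolynomial T ℤ) u) ≠ 0 := fun e => by
      have := Polynomial.derivative_eq_zero.1 e
      exact (minpoly.natDegree_pos huint).ne' this
    exact absurd (Polynomial.natDegree_le_of_dvd hdvd hne)
      (not_le.2 (Polynomial.natDegree_derivative_lt (minpoly.natDegree_pos huint).ne'))
  · exact (map_ne_zero_iff _ hinjA).2 (Finset.prod_ne_zero_iff.2 fun i _ => hb i)
  · rw [heval, ← halgA]
    by_cases hi : i ∈ T
    · rw [show P i = Polynomial.C (h * MvPolynomial.X ⟨i, hi⟩) from dif_pos hi, Polynomial.aeval_C,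
        map_mul, halgA (MvPolynomial.X _), MvPolynomial.aeval_X]
    · rw [show P i = Polynomial.C (∏ j ∈ Finset.univ.erase i, b j) * Q i from dif_neg hi, map_mul,
        Polynomial.aeval_C, ← hQ, ← mul_assoc, ← map_mul,
        Finset.prod_erase_mul Finset.univ b (Finset.mem_univ i)]
  · exact minpoly.isIntegrallyClosed_dvd huint ((heval p).symm.trans hp)

end Vale.Agent.P202.Zero
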