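import Vale.Agent.P202.Zero.Approx.Agree

/-!
# P202, characteristic zero: linear changes of variables and roots by successive approximation
-/

noncomputable section

namespace Vale.Agent.P202.Zero.Apx

open MvPowerSeries

universe u

section Root

open Polynomial

/-- A root near zero of a polynomial with constant term in the ideal and linear term near one. -/
theorem exists_root {G : Type*} [CommRing G] (I : Ideal G) [IsAdicComplete I G] (g : G[X])
    (h0 : g.eval 0 ∈ I) (h1 : (derivative g).eval 0 - 1 ∈ I) : ∃ s ∈ I, g.eval s = 0 := by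
  let a : ℕ → G := fun n => Nat.rec 0 (fun _ x => x - g.eval x) n
  have ha : ∀ n, a (n + 1) = a n - g.eval (a n) := fun n => rfl
  have key : ∀ n, a n ∈ I ∧ g.eval (a n) ∈ I ^ (n + 1) := by
    intro n
    induction n with
    | zero => exact ⟨I.zero_mem, by simpa [pow_one, a] using h0⟩
    | succ n ih =>
      obtain ⟨hI, hg⟩ := ih
      have hg1 : g.eval (a n) ∈ I := Ideal.pow_le_self n.succ_ne_zero hg
      refine ⟨by rw [ha]; exact I.sub_mem hI hg1, ?_⟩
      obtain ⟨e, he⟩ := g.binomExpansion (a n) (-g.eval (a n))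
      rw [← sub_eq_add_neg] at he
      have hd : (derivative g).eval (a n) - 1 ∈ I := by
        obtain ⟨c, hc⟩ := (derivative g).evalSubFactor (a n) 0
        have : (derivative g).eval (a n) - 1 =
            c * (a n - 0) + ((derivative g).eval 0 - 1) := by rw [← hc]; ring
        rw [this, sub_zero]
        exact I.add_mem (I.mul_mem_left _ hI) h1
      rw [ha, he, pow_succ]
      have : g.eval (a n) + (derivative g).eval (a n) * -g.eval (a n) + e * (-g.eval (a n)) ^ 2 =
          g.eval (a n) * (-((derivative g).eval (a n) - 1) + e * g.eval (a n)) := by ring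
      rw [this]
      exact Ideal.mul_mem_mul hg (I.add_mem (I.neg_mem hd) (I.mul_mem_left _ hg1))
  have hcauchy : ∀ {i j}, i ≤ j → a i ≡ a j [SMOD (I ^ i • ⊤ : Submodule G G)] := by
    intro i j hij
    induction hij with
    | refl => exact SModEq.rfl
    | @step l hl ih =>
      refine ih.trans ?_
      rw [SModEq.sub_mem, smul_eq_mul, Ideal.mul_top, ha, sub_sub_cancel]
      exact Ideal.pow_le_pow_right (Nat.le_succ_of_le hl) (key l).2
  obtain ⟨s, hs⟩ := IsPrecomplete.prec' (I := I) a hcauchy
  have hsn : ∀ n, a n - s ∈ I ^ n := fun n => by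
    simpa [SModEq.sub_mem] using hs n
  refine ⟨s, ?_, IsHausdorff.haus' (I := I) _ fun n => ?_⟩
  · have h := I.sub_mem (key 1).1 (by simpa using hsn 1 : a 1 - s ∈ I)
    simpa using h
  · rw [SModEq.zero, smul_eq_mul, Ideal.mul_top]
    obtain ⟨c, hc⟩ := g.evalSubFactor (a n) s
    have : g.eval s = g.eval (a n) - c * (a n - s) := by rw [← hc]; ring
    rw [this]
    exact Ideal.sub_mem _ (Ideal.pow_le_pow_right n.le_succ (key n).2)
      (Ideal.mul_mem_left _ _ (hsn n))

end Root

section Shear

variable {R : Type*} [CommRing R] {n : ℕ}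

/-- The change of variables fixing `X 0` and adding multiples of it to the others. -/
def shear (c : Fin n → R) : Fin (n + 1) → MvPowerSeries (Fin (n + 1)) R :=
  Fin.cons (X 0) fun j => X j.succ + C (c j) * X 0

@[simp] theorem shear_zero (c : Fin n → R) : shear c 0 = X 0 := rfl

@[simp] theorem shear_succ (c : Fin n → R) (j : Fin n) :
    shear c j.succ = X j.succ + C (c j) * X 0 := rfl

theorem constantCoeff_shear (c : Fin n → R) (i : Fin (n + 1)) : constantCoeff (shear c i) = 0 := by
  refine Fin.cases ?_ (fun j => ?_) i <;> simp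

theorem map_shear {S : Type*} [CommRing S] (f : R →+* S) (c : Fin n → R) (i : Fin (n + 1)) :
    map f (shear c i) = shear (fun j => f (c j)) i := by
  refine Fin.cases ?_ (fun j => ?_) i <;> simp [map_X]

theorem hasSubst_shear (c : Fin n → R) : HasSubst (shear c) :=
  hasSubst_of_constantCoeff_zero (constantCoeff_shear c)

/-- Shears by opposite amounts are inverse. -/
theorem subst_shear_shear {c c' : Fin n → R} (h : ∀ j, c j + c' j = 0)
    (f : MvPowerSeries (Fin (n + 1)) R) : subst (shear c') (subst (shear c) f) = f := by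
  rw [subst_comp_subst_apply (hasSubst_shear c) (hasSubst_shear c')]
  have : (fun i => subst (shear c') (shear c i)) = (X : Fin (n + 1) → MvPowerSeries _ R) := by
    funext i
    have hs := hasSubst_shear c'
    refine Fin.cases ?_ (fun j => ?_) i
    · rw [shear_zero, subst_X hs, shear_zero]
    · rw [shear_succ, subst_add hs, subst_mul hs, subst_X hs, subst_C, subst_X hs, shear_succ,
        shear_zero, add_assoc, ← add_mul, ← map_add, add_comm (c' j), h j, map_zero, zero_mul,
        add_zero]
  rw [this, subst_self]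
  rfl

end Shear

section Regular

variable {k : Type u} [Field k] [Infinite k] {n : ℕ}

/-- The restriction to the first coordinate axis. -/
def axis : MvPowerSeries (Fin (n + 1)) k →+* PowerSeries k :=
  (PowerSeries.map constantCoeff).comp
    (finSuccEquiv k n : MvPowerSeries (Fin (n + 1)) k →+* PowerSeries (MvPowerSeries (Fin n) k))

omit [Infinite k] in
theorem coeff_axis (f : MvPowerSeries (Fin (n + 1)) k) (o : ℕ) :
    PowerSeries.coeff o (axis f) = coeff (Finsupp.cons o 0) f := by
  rw [← coeff_coeff_finSuccEquiv, coeff_zero_eq_constantCoeff_apply]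
  simp [axis]

omit [Infinite k] in
theorem axis_shear (c : Fin n → k) (i : Fin (n + 1)) :
    axis (shear c i) = PowerSeries.C ((Fin.cons 1 c : Fin (n + 1) → k) i) * PowerSeries.X := by
  refine Fin.cases ?_ (fun j => ?_) i
  · simp [axis]
  · simp [axis, mul_comm]

/-- Some shear makes a nonzero series regular in the first variable. -/
theorem exists_shear_regular {f : MvPowerSeries (Fin (n + 1)) k} (hf : f ≠ 0) :
    ∃ c : Fin n → k, axis (subst (shear c) f) ≠ 0 := by
  classical
  obtain ⟨d₀, hd₀⟩ : ∃ d, coeff d f ≠ 0 := by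
    by_contra! h
    exact hf (MvPowerSeries.ext fun d => by rw [h d, map_zero])
  set o := d₀.degree
  set S := (Finset.univ : Finset (Fin (n + 1))).finsuppAntidiag o
  have hS : ∀ d, d ∈ S ↔ d.degree = o := fun d => by
    simp [S, Finsupp.degree_eq_sum]
  set Φ : MvPolynomial (Fin (n + 1)) k := ∑ d ∈ S, MvPolynomial.monomial d (coeff d f)
  have hΦ : Φ * MvPolynomial.X 0 ≠ 0 := by
    refine mul_ne_zero (fun h => hd₀ ?_) (MvPolynomial.X_ne_zero _)
    have := congrArg (MvPolynomial.coeff d₀) h
    simpa [Φ, MvPolynomial.coeff_sum, MvPolynomial.coeff_monomial, (hS d₀).2 rfl] using this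
  obtain ⟨γ, hγ⟩ : ∃ γ, MvPolynomial.eval γ (Φ * MvPolynomial.X 0) ≠ 0 := by
    by_contra! h
    exact hΦ (MvPolynomial.funext fun γ => by rw [h γ, map_zero])
  simp only [map_mul, MvPolynomial.eval_X, mul_ne_zero_iff] at hγ
  obtain ⟨hγ1, hγ0⟩ := hγ
  refine ⟨fun j => (γ 0)⁻¹ * γ j.succ, fun h => hγ1 ?_⟩
  set c : Fin n → k := fun j => (γ 0)⁻¹ * γ j.succ
  set g : Fin (n + 1) → k := Fin.cons 1 c
  have hg : ∀ i, γ i = γ 0 * g i := fun i => by
    refine Fin.cases ?_ (fun j => ?_) i
    · simp [g]
    · simp [g, c, hγ0]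
  have key : ∀ d : Fin (n + 1) →₀ ℕ,
      coeff (Finsupp.cons o 0) (d.prod fun i e => shear c i ^ e) =
        if d.degree = o then d.prod fun i e => g i ^ e else 0 := fun d => by
    rw [← coeff_axis, Finsupp.prod, map_prod]
    rw [Finset.prod_congr rfl fun i _ => by rw [map_pow, axis_shear, mul_pow, ← map_pow],
      Finset.prod_mul_distrib, ← map_prod, Finset.prod_pow_eq_pow_sum]
    rw [PowerSeries.coeff_C_mul, PowerSeries.coeff_X_pow, Finsupp.degree_apply, Finsupp.prod]
    simp [eq_comm, g]
  have h0 : coeff (Finsupp.cons o 0) (subst (shear c) f) = 0 := by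
    rw [← coeff_axis, h, map_zero]
  rw [coeff_subst (hasSubst_shear c)] at h0
  rw [finsum_eq_sum_of_support_subset _ (s := S) (fun d hd => by
    rw [Function.mem_support] at hd
    rw [Finset.mem_coe, hS]
    by_contra hne
    exact hd (by rw [key, if_neg hne, smul_zero]))] at h0
  calc MvPolynomial.eval γ Φ = γ 0 ^ o * ∑ d ∈ S, coeff d f • d.prod fun i e => g i ^ e := by
        simp only [Φ, map_sum, MvPolynomial.eval_monomial, Finset.mul_sum, smul_eq_mul]
        refine Finset.sum_congr rfl fun d hd => ?_
        simp only [Finsupp.prod]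
        rw [Finset.prod_congr rfl fun i _ => by rw [hg i, mul_pow], Finset.prod_mul_distrib,
          Finset.prod_pow_eq_pow_sum]
        rw [← (hS d).1 hd, Finsupp.degree_apply]
        ring
    _ = 0 := by
      rw [Finset.sum_congr rfl fun d hd => by rw [← (if_pos ((hS d).1 hd) : (if d.degree = o then
        d.prod fun i e => g i ^ e else 0) = _), ← key d], h0, mul_zero]

end Regular

end Vale.Agent.P202.Zero.Apx
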