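import Vale.Agent.P202.Zero.Approx.Eval
import Vale.Agent.P202.Zero.Approx.Shear
import Vale.Agent.P202.RingSide.Complete

/-!
# P202, equal characteristic zero: the induction step of approximation

Weierstrass preparation turns the equations into identities of polynomials in the first variable,
whose coefficients are series in one variable fewer.
-/

noncomputable section

namespace Vale.Agent.P202.Zero.Apx

open MvPowerSeries IsLocalRing

universe u

variable {k : Type u} [Field k]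

/-- Approximation of finitely generated subrings, up to jets. -/
def JetApprox (k : Type u) [Field k] (n : ℕ) : Prop :=
  ∀ (s : Finset (MvPowerSeries (Fin n) k)) (M : ℕ), ∃ T : Finset k,
    ∀ (F : Type u) [Field F] (ψ : Subring.closure (T : Set k) →+* F),
      ∃ φ : Subring.closure (s : Set (MvPowerSeries (Fin n) k)) →+* MvPowerSeries (Fin n) F,
        ∀ y : Subring.closure (s : Set (MvPowerSeries (Fin n) k)),
          ((y : MvPowerSeries (Fin n) k), φ y) ∈ agree (Fin n) ψ M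

theorem isAdicComplete_maximalIdeal (n : ℕ) (F : Type*) [Field F] :
    IsAdicComplete (maximalIdeal (MvPowerSeries (Fin n) F)) (MvPowerSeries (Fin n) F) := by
  rw [maximalIdeal_mvPowerSeries]
  infer_instance

theorem mem_maximalIdeal_iff {n : ℕ} {F : Type*} [Field F] (f : MvPowerSeries (Fin n) F) :
    f ∈ maximalIdeal (MvPowerSeries (Fin n) F) ↔ constantCoeff f = 0 := by
  rw [mem_maximalIdeal, mem_nonunits_iff, MvPowerSeries.isUnit_iff_constantCoeff, isUnit_iff_ne_zero,
    ne_eq, not_not]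

/-- A multiple of a high power of a variable agrees with zero. -/
theorem agree_zero_left {n : ℕ} {F : Type u} [Field F] {A : Subring k} (ψ : A →+* F) (M : ℕ)
    (z : MvPowerSeries (Fin (n + 1)) F) :
    ((0 : MvPowerSeries (Fin (n + 1)) k), X 0 ^ M * z) ∈ agree (Fin (n + 1)) ψ M := by
  refine agree_def.2 ⟨0, by rw [map_zero]; exact LowEq.refl _, fun β hβ => ?_⟩
  rw [map_zero, map_zero]
  refine (coeff_of_lt_order (lt_of_lt_of_le ?_ le_order_mul)).symm
  calc ((β.degree : ℕ) : ℕ∞) < M := by exact_mod_cast hβ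
    _ ≤ (X 0 ^ M : MvPowerSeries (Fin (n + 1)) F).order + z.order :=
      le_add_right (le_order_pow_of_constantCoeff_eq_zero M (by simp))

section Poly

variable {R : Type*} [CommRing R] {n : ℕ}

theorem phi_X : phi R n Polynomial.X = X 0 := by
  apply (finSuccEquiv R n).injective
  rw [finSuccEquiv_phi, finSuccEquiv_X_zero, Polynomial.coe_X]

theorem phi_injective : Function.Injective (phi R n) := fun p q h => by
  simpa [finSuccEquiv_phi] using congrArg (finSuccEquiv R n) h

theorem coeff_axis_phi {F : Type u} [Field F] (p : Polynomial (MvPowerSeries (Fin n) F)) :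
    axis (phi F n p) = ((p.map constantCoeff : Polynomial F) : PowerSeries F) := by
  rw [Polynomial.polynomial_map_coe, axis, RingHom.comp_apply]
  exact congrArg _ (finSuccEquiv_phi p)

/-- A polynomial with coefficients in a subring lifts to it. -/
theorem exists_lift {S : Subring R} (p : Polynomial R) (hp : ∀ j, p.coeff j ∈ S) :
    ∃ q : Polynomial S, q.map S.subtype = p := by
  refine (Polynomial.mem_lifts p).1 ((Polynomial.lifts_iff_coeff_lifts p).2 fun j => ?_)
  exact ⟨⟨p.coeff j, hp j⟩, rfl⟩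

end Poly

section Field

variable {F : Type*} [Field F] {n : ℕ}

theorem axis_phi_eq {a : ℕ} (p : Polynomial (MvPowerSeries (Fin n) F)) (hp : p.Monic)
    (hdeg : p.natDegree = a) (h1 : ∀ j < a, constantCoeff (p.coeff j) = 0) :
    axis (phi F n p) = PowerSeries.X ^ a := by
  rw [axis, RingHom.comp_apply]
  change PowerSeries.map constantCoeff (finSuccEquiv F n (phi F n p)) = _
  rw [finSuccEquiv_phi]
  refine PowerSeries.ext fun j => ?_
  rw [PowerSeries.coeff_map, Polynomial.coeff_coe, PowerSeries.coeff_X_pow]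
  rcases lt_trichotomy j a with hj | rfl | hj
  · rw [if_neg hj.ne, h1 j hj]
  · rw [if_pos rfl, ← hdeg, hp.coeff_natDegree, map_one]
  · rw [if_neg hj.ne', Polynomial.coeff_eq_zero_of_natDegree_lt (hdeg ▸ hj), map_zero]

theorem coeff_mul_of_axis {a : ℕ} {x : MvPowerSeries (Fin (n + 1)) F}
    (hx : axis x = PowerSeries.X ^ a) (y : MvPowerSeries (Fin (n + 1)) F) :
    coeff (Finsupp.cons a 0) (x * y) = constantCoeff y := by
  rw [← coeff_axis, map_mul, hx, PowerSeries.coeff_X_pow_mul', if_pos le_rfl, Nat.sub_self,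
    coeff_axis, Finsupp.cons_zero_zero, coeff_zero_eq_constantCoeff_apply]

/-- A multiple of a Weierstrass polynomial with nonzero coefficient at the degree is a divisor. -/
theorem dvd_of_axis {a : ℕ} {w H : MvPowerSeries (Fin (n + 1)) F}
    (hw : axis w = PowerSeries.X ^ a) (hdvd : w ∣ H) (hH : coeff (Finsupp.cons a 0) H ≠ 0) :
    H ∣ w ∧ H ≠ 0 := by
  obtain ⟨U, rfl⟩ := hdvd
  rw [coeff_mul_of_axis hw] at hH
  have hU : IsUnit U :=
    MvPowerSeries.isUnit_iff_constantCoeff.2 (isUnit_iff_ne_zero.2 hH)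
  refine ⟨hU.mul_right_dvd.2 dvd_rfl, mul_ne_zero (fun h0 => ?_) hU.ne_zero⟩
  rw [h0, map_zero] at hw
  exact pow_ne_zero a PowerSeries.X_ne_zero hw.symm

/-- One-variable Newton: a root near an approximate root. -/
theorem exists_near_root (μF : Polynomial (MvPowerSeries (Fin (n + 1)) F))
    (υ hh dd ε : MvPowerSeries (Fin (n + 1)) F) {M : ℕ} (hM : 1 ≤ M)
    (hdd : (Polynomial.derivative μF).eval υ = dd)
    (hε : μF.eval υ = X 0 ^ M * (hh * dd ^ 2) * ε) :
    ∃ z, μF.eval (υ + hh * dd * (X 0 ^ M * z)) = 0 := by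
  obtain ⟨rp, hrp⟩ := (μF.map Polynomial.C).binomExpansion (Polynomial.C υ)
    (Polynomial.C (hh * dd) * Polynomial.X)
  set g : Polynomial (MvPowerSeries (Fin (n + 1)) F) := Polynomial.C (X 0 ^ M * ε) + Polynomial.X +
    Polynomial.C hh * Polynomial.X ^ 2 * rp with hg
  have hev : ∀ (q : Polynomial (MvPowerSeries (Fin (n + 1)) F))
      (y : Polynomial (MvPowerSeries (Fin (n + 1)) F)) (s : MvPowerSeries (Fin (n + 1)) F),
      ((q.map Polynomial.C).eval y).eval s = q.eval (y.eval s) := fun q y s => by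
    rw [Polynomial.eval_map, ← Polynomial.coe_evalRingHom, Polynomial.hom_eval₂]
    simp only [Polynomial.coe_evalRingHom]
    rw [Polynomial.eval]
    congr 1
    ext x
    simp
  have key : ∀ s, μF.eval (υ + hh * dd * s) = hh * dd ^ 2 * g.eval s := fun s => by
    have h1 := congrArg (Polynomial.eval s) hrp
    rw [hev, Polynomial.derivative_map] at h1
    simp only [Polynomial.eval_add, Polynomial.eval_mul, Polynomial.eval_C, Polynomial.eval_X,
      Polynomial.eval_pow, hev, hdd, hε] at h1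
    rw [h1, hg]
    simp only [Polynomial.eval_add, Polynomial.eval_mul, Polynomial.eval_C, Polynomial.eval_X,
      Polynomial.eval_pow]
    ring
  have := isAdicComplete_maximalIdeal (n + 1) F
  obtain ⟨s, hsI, hs0⟩ := exists_root (maximalIdeal _) g
    (by rw [mem_maximalIdeal_iff]; simp [hg, show M ≠ 0 by omega]) (by
      rw [hg, map_add, map_add, Polynomial.derivative_C, Polynomial.derivative_X,
        Polynomial.derivative_mul, Polynomial.derivative_mul]
      simp)
  have hunit : IsUnit (1 + hh * s * rp.eval s) := by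
    rw [MvPowerSeries.isUnit_iff_constantCoeff]
    simp [(mem_maximalIdeal_iff s).1 hsI]
  obtain ⟨v, hv⟩ := hunit.exists_right_inv
  have h2 : X 0 ^ M * ε + s * (1 + hh * s * rp.eval s) = 0 := by
    rw [← hs0, hg]
    simp only [Polynomial.eval_add, Polynomial.eval_mul, Polynomial.eval_C, Polynomial.eval_X,
      Polynomial.eval_pow]
    ring
  refine ⟨-ε * v, ?_⟩
  have hs : X 0 ^ M * (-ε * v) = s := by linear_combination (-v) * h2 + s * hv
  rw [hs, key, hs0, mul_zero]

end Field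

/-- The identities modulo a Weierstrass polynomial. -/
structure Prep {n m : ℕ} {ι : Type} (M : ℕ) (t : Fin m → MvPowerSeries (Fin (n + 1)) k)
    (υ : MvPowerSeries (Fin (n + 1)) k) (b : ι → MvPowerSeries (Fin (n + 1)) k) (μ : IPoly m)
    (h : MvPolynomial (Fin m) ℤ) (Q : ι → IPoly m) where
  /-- The polynomial. -/
  W : Polynomial (MvPowerSeries (Fin n) k)
  /-- The parameters modulo it. -/
  pt : Fin m → Polynomial (MvPowerSeries (Fin n) k)
  /-- Their quotients. -/
  qt : Fin m → MvPowerSeries (Fin (n + 1)) k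
  /-- The primitive element modulo it. -/
  pυ : Polynomial (MvPowerSeries (Fin n) k)
  /-- Its quotient. -/
  qυ : MvPowerSeries (Fin (n + 1)) k
  /-- The generators modulo it. -/
  pb : ι → Polynomial (MvPowerSeries (Fin n) k)
  /-- Their quotients. -/
  qb : ι → MvPowerSeries (Fin (n + 1)) k
  /-- The quotient in the identity of the discriminant. -/
  eH : Polynomial (MvPowerSeries (Fin n) k)
  /-- The quotient in the equation. -/
  eμ : Polynomial (MvPowerSeries (Fin n) k)
  /-- The quotients in the fractions. -/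
  eQ : ι → Polynomial (MvPowerSeries (Fin n) k)
  monic : W.Monic
  low : ∀ j < W.natDegree, constantCoeff (W.coeff j) = 0
  top : coeff (Finsupp.cons W.natDegree 0)
    (X 0 ^ M * (tev t h * pev t υ (Polynomial.derivative μ) ^ 2)) ≠ 0
  ht : ∀ j, t j = phi k n (pt j) + phi k n W * qt j
  hυ : υ = phi k n pυ + phi k n W * qυ
  hb : ∀ i, b i = phi k n (pb i) + phi k n W * qb i
  idH : Polynomial.X ^ M * (tev pt h * pev pt pυ (Polynomial.derivative μ) ^ 2) = W * eH
  idμ : pev pt pυ μ = W * eμ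
  idQ : ∀ i, pev pt pυ (Q i) - tev pt h * pb i = W * eQ i

theorem nonempty_prep {n m : ℕ} {ι : Type} (t : Fin m → MvPowerSeries (Fin (n + 1)) k)
    (υ : MvPowerSeries (Fin (n + 1)) k) (b : ι → MvPowerSeries (Fin (n + 1)) k) (μ : IPoly m)
    (h : MvPolynomial (Fin m) ℤ) (Q : ι → IPoly m) (hμ : pev t υ μ = 0)
    (hQ : ∀ i, pev t υ (Q i) = tev t h * b i)
    (hreg : axis (tev t h * pev t υ (Polynomial.derivative μ) ^ 2) ≠ 0) (M : ℕ) :
    Nonempty (Prep M t υ b μ h Q) := by
  have := isAdicComplete_maximalIdeal n k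
  set δ : IPoly m := Polynomial.derivative μ
  set H := X 0 ^ M * (tev t h * pev t υ δ ^ 2) with hH
  set g := finSuccEquiv k n H
  have hgaxis : PowerSeries.map (constantCoeff (σ := Fin n) (R := k)) g ≠ 0 := by
    have h1 : PowerSeries.map (constantCoeff (σ := Fin n) (R := k)) g = axis H := rfl
    rw [h1, hH, map_mul, map_pow]
    refine mul_ne_zero (pow_ne_zero _ ?_) hreg
    simp [axis]
  have hg : g.map (residue (MvPowerSeries (Fin n) k)) ≠ 0 := fun h0 => by
    refine hgaxis (PowerSeries.ext fun j => ?_)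
    have := congrArg (PowerSeries.coeff j) h0
    rw [PowerSeries.coeff_map, map_zero, residue_eq_zero_iff, mem_maximalIdeal_iff] at this
    rw [PowerSeries.coeff_map, this, map_zero]
  obtain ⟨W, U, hWU⟩ := PowerSeries.exists_isWeierstrassFactorization hg
  have hWmon := hWU.isDistinguishedAt.monic
  have hlow : ∀ j < W.natDegree, constantCoeff (W.coeff j) = 0 := fun j hj =>
    (mem_maximalIdeal_iff _).1 (hWU.isDistinguishedAt.mem hj)
  have hWres : (W : PowerSeries (MvPowerSeries (Fin n) k)).map (residue _) ≠ 0 := fun h0 => by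
    have := congrArg (PowerSeries.coeff W.natDegree) h0
    rw [PowerSeries.coeff_map, Polynomial.coeff_coe, hWmon.coeff_natDegree, map_one,
      map_zero] at this
    exact one_ne_zero this
  obtain ⟨U', rfl⟩ : ∃ U', finSuccEquiv k n U' = U := (finSuccEquiv k n).surjective U
  have hHw : H = phi k n W * U' := (finSuccEquiv k n).injective (by
    rw [map_mul (finSuccEquiv k n) (phi k n W) U', finSuccEquiv_phi W]
    exact hWU.eq_mul)
  have htop : coeff (Finsupp.cons W.natDegree 0) H ≠ 0 := by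
    rw [hHw, coeff_mul_of_axis (axis_phi_eq W hWmon rfl hlow)]
    exact ((MvPowerSeries.isUnit_iff_constantCoeff.1
      ((isUnit_map_iff (finSuccEquiv k n) U').1 hWU.isUnit))).ne_zero
  have hdiv : ∀ z : MvPowerSeries (Fin (n + 1)) k, ∃ p q, z = phi k n p + phi k n W * q :=
    fun z => by
      obtain ⟨q, r, hqr⟩ := PowerSeries.exists_isWeierstrassDivision (f := finSuccEquiv k n z) hWres
      obtain ⟨q', rfl⟩ : ∃ q', finSuccEquiv k n q' = q := (finSuccEquiv k n).surjective q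
      refine ⟨r, q', (finSuccEquiv k n).injective ?_⟩
      rw [map_add (finSuccEquiv k n) (phi k n r) (phi k n W * q'),
        map_mul (finSuccEquiv k n) (phi k n W) q', finSuccEquiv_phi r, finSuccEquiv_phi W]
      exact hqr.eq_mul_add.trans (add_comm _ _)
  have hpolydvd : ∀ p, phi k n W ∣ phi k n p → W ∣ p := fun p ⟨q, hq⟩ => by
    rw [← Polynomial.modByMonic_eq_zero_iff_dvd hWmon]
    have h1 : phi k n (p %ₘ W) = phi k n W * (q - phi k n (p /ₘ W)) := by
      rw [mul_sub, ← hq, ← map_mul, ← map_sub]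
      congr 1
      rw [eq_sub_iff_add_eq, Polynomial.modByMonic_add_div]
    have h2 := congrArg (finSuccEquiv k n) h1
    rw [map_mul (finSuccEquiv k n) (phi k n W) _, finSuccEquiv_phi, finSuccEquiv_phi] at h2
    refine (hWU.isDistinguishedAt.isWeierstrassDivisorAt'.eq_zero_of_mul_eq ?_ h2.symm).2
    have hord : ((W : PowerSeries (MvPowerSeries (Fin n) k)).map
        (Ideal.Quotient.mk (maximalIdeal _))).order.toNat = W.natDegree := by
      have h3 := hWU.isDistinguishedAt.coe_natDegree_eq_order_map (W : PowerSeries _) 1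
        (by rw [map_one, ← Ideal.ne_top_iff_one]; exact (maximalIdeal.isMaximal _).ne_top) (by simp)
      rw [← h3]
      rfl
    rw [hord, ← Polynomial.degree_eq_natDegree hWmon.ne_zero]
    exact Polynomial.degree_modByMonic_lt _ hWmon
  choose pt qt hpt using fun j => hdiv (t j)
  obtain ⟨pυ, qυ, hpυ⟩ := hdiv υ
  choose pb qb hpb using fun i => hdiv (b i)
  have hwt : ∀ j, phi k n W ∣ t j - phi k n (pt j) := fun j => ⟨qt j, by rw [hpt j]; ring⟩
  have hwυ : phi k n W ∣ υ - phi k n pυ := ⟨qυ, by rw [hpυ]; ring⟩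
  obtain ⟨eH, heH⟩ : W ∣ Polynomial.X ^ M * (tev pt h * pev pt pυ δ ^ 2) := by
    refine hpolydvd _ ?_
    have e1 := dvd_tev_sub hwt h
    have e2 := dvd_pev_sub hwt hwυ δ
    have e3 : phi k n W ∣ H := ⟨U', hHw⟩
    rw [map_mul, map_mul, map_pow, map_pow, phi_X, map_tev, map_pev]
    set A := tev t h
    set B := pev t υ δ
    set A' := tev (fun j => phi k n (pt j)) h
    set B' := pev (fun j => phi k n (pt j)) (phi k n pυ) δ
    have : X 0 ^ M * (A' * B' ^ 2) = H - ((A - A') * (X 0 ^ M * B ^ 2) +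
        (B - B') * (X 0 ^ M * A' * (B + B'))) := by rw [hH]; ring
    rw [this]
    exact dvd_sub e3 (dvd_add (e1.mul_right _) (e2.mul_right _))
  obtain ⟨eμ, heμ⟩ : W ∣ pev pt pυ μ := by
    refine hpolydvd _ ?_
    have := dvd_pev_sub hwt hwυ μ
    rw [hμ, zero_sub, dvd_neg] at this
    rwa [map_pev]
  have hQW : ∀ i, W ∣ pev pt pυ (Q i) - tev pt h * pb i := fun i => by
    refine hpolydvd _ ?_
    rw [map_sub, map_mul, map_pev, map_tev]
    have h1 := dvd_pev_sub hwt hwυ (Q i)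
    rw [hQ i] at h1
    have h2 := (dvd_tev_sub hwt h).mul_right (b i)
    have h3 : phi k n W ∣ tev (fun j => phi k n (pt j)) h * (b i - phi k n (pb i)) :=
      dvd_mul_of_dvd_right ⟨qb i, by rw [hpb i]; ring⟩ _
    convert dvd_sub (dvd_add h2 h3) h1 using 1
    ring
  choose eQ heQ using hQW
  exact ⟨⟨W, pt, qt, pυ, qυ, pb, qb, eH, eμ, eQ, hWmon, hlow, htop, hpt, hpυ, hpb, heH, heμ, heQ⟩⟩

/-- The point over another field: the algebra, without jets. -/
theorem exists_point {n m : ℕ} {ι : Type} {F : Type*} [Field F] {B : Type*} [CommRing B]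
    (Φ : Polynomial B →+* MvPowerSeries (Fin (n + 1)) F) (hX : Φ Polynomial.X = X 0)
    (W eH eμ : Polynomial B) (pt : Fin m → Polynomial B) (pυ : Polynomial B)
    (pb eQ : ι → Polynomial B) (μ : IPoly m) (h : MvPolynomial (Fin m) ℤ) (Q : ι → IPoly m)
    {M : ℕ} (hM : 1 ≤ M)
    (idH : Polynomial.X ^ M * (tev pt h * pev pt pυ (Polynomial.derivative μ) ^ 2) = W * eH)
    (idμ : pev pt pυ μ = W * eμ)
    (idQ : ∀ i, pev pt pυ (Q i) - tev pt h * pb i = W * eQ i)
    {a : ℕ} (haxis : axis (Φ W) = PowerSeries.X ^ a)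
    (qt : Fin m → MvPowerSeries (Fin (n + 1)) F) (qυ : MvPowerSeries (Fin (n + 1)) F)
    (qb : ι → MvPowerSeries (Fin (n + 1)) F)
    (htop : coeff (Finsupp.cons a 0) (X 0 ^ M *
      (tev (fun j => Φ (pt j) + Φ W * qt j) h *
        pev (fun j => Φ (pt j) + Φ W * qt j) (Φ pυ + Φ W * qυ) (Polynomial.derivative μ) ^ 2)) ≠ 0) :
    ∃ υ' : MvPowerSeries (Fin (n + 1)) F, ∃ zb : ι → MvPowerSeries (Fin (n + 1)) F,
      pev (fun j => Φ (pt j) + Φ W * qt j) υ' μ = 0 ∧
      tev (fun j => Φ (pt j) + Φ W * qt j) h ≠ 0 ∧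
      ∀ i, pev (fun j => Φ (pt j) + Φ W * qt j) υ' (Q i) =
        tev (fun j => Φ (pt j) + Φ W * qt j) h * (Φ (pb i) + Φ W * qb i + X 0 ^ M * zb i) := by
  set t' := fun j => Φ (pt j) + Φ W * qt j
  set υ₂ := Φ pυ + Φ W * qυ
  set t₀ := fun j => Φ (pt j)
  set hh := tev t' h
  set dd := pev t' υ₂ (Polynomial.derivative μ)
  have hwt : ∀ j, Φ W ∣ t' j - t₀ j := fun j => ⟨qt j, by simp only [t', t₀]; ring⟩
  have hwυ : Φ W ∣ υ₂ - Φ pυ := ⟨qυ, by simp only [υ₂]; ring⟩
  have idH' : X 0 ^ M * (tev t₀ h * pev t₀ (Φ pυ) (Polynomial.derivative μ) ^ 2) = Φ W * Φ eH := by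
    have := congrArg Φ idH
    rwa [map_mul, map_mul, map_pow, map_pow, hX, map_tev, map_pev, map_mul] at this
  have idμ' : pev t₀ (Φ pυ) μ = Φ W * Φ eμ := by
    have := congrArg Φ idμ
    rwa [map_pev, map_mul] at this
  have hwH : Φ W ∣ X 0 ^ M * (hh * dd ^ 2) := by
    set A' := tev t₀ h
    set B' := pev t₀ (Φ pυ) (Polynomial.derivative μ)
    have : X 0 ^ M * (hh * dd ^ 2) = Φ W * Φ eH + ((hh - A') * (X 0 ^ M * dd ^ 2) +
        (dd - B') * (X 0 ^ M * A' * (dd + B'))) := by rw [← idH']; ring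
    rw [this]
    exact dvd_add (dvd_mul_right _ _) (dvd_add ((dvd_tev_sub hwt h).mul_right _)
      ((dvd_pev_sub hwt hwυ _).mul_right _))
  obtain ⟨hHw, hH0⟩ := dvd_of_axis haxis hwH htop
  have hh0 : hh ≠ 0 := fun h0 => hH0 (by rw [h0]; ring)
  obtain ⟨ε, hε⟩ : X 0 ^ M * (hh * dd ^ 2) ∣ pev t' υ₂ μ := by
    refine hHw.trans ?_
    have h1 := dvd_pev_sub hwt hwυ μ
    rw [idμ'] at h1
    exact (dvd_sub_left (dvd_mul_right _ _)).1 h1
  have hev : ∀ (z : MvPowerSeries (Fin (n + 1)) F) (q : IPoly m),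
      pev t' z q = (q.map (tev t')).eval z := fun z q => by
    rw [Polynomial.eval_map]
    rfl
  obtain ⟨z, hz⟩ := exists_near_root (μ.map (tev t')) υ₂ hh dd ε hM
    (by rw [Polynomial.derivative_map, ← hev]) (by rw [← hev]; exact hε)
  refine ⟨υ₂ + hh * dd * (X 0 ^ M * z), ?_⟩
  set υ' := υ₂ + hh * dd * (X 0 ^ M * z)
  have key : ∀ i, ∃ zb, pev t' υ' (Q i) = hh * (Φ (pb i) + Φ W * qb i + X 0 ^ M * zb) := fun i => by
    obtain ⟨c, hc⟩ : hh * X 0 ^ M ∣ pev t' υ' (Q i) - hh * (Φ (pb i) + Φ W * qb i) := by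
      have hsub : hh * X 0 ^ M ∣ pev t' υ' (Q i) - pev t' υ₂ (Q i) :=
        Dvd.dvd.trans ⟨dd * z, by simp only [υ']; ring⟩
          (dvd_pev_sub (w := υ' - υ₂) (fun j => by simp) dvd_rfl (Q i))
      have hw : hh * X 0 ^ M ∣ Φ W := Dvd.dvd.trans ⟨dd ^ 2, by ring⟩ hHw
      have h1 := congrArg Φ (idQ i)
      rw [map_sub, map_mul, map_mul, map_pev, map_tev] at h1
      have h2 : Φ W ∣ pev t' υ₂ (Q i) - hh * (Φ (pb i) + Φ W * qb i) := by
        have e1 := dvd_pev_sub hwt hwυ (Q i)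
        have e2 := (dvd_tev_sub hwt h).mul_right (Φ (pb i))
        have : pev t' υ₂ (Q i) - hh * (Φ (pb i) + Φ W * qb i) =
            (pev t' υ₂ (Q i) - pev t₀ (Φ pυ) (Q i)) - (hh - tev t₀ h) * Φ (pb i) +
              Φ W * (Φ (eQ i) - hh * qb i) := by linear_combination h1
        rw [this]
        exact dvd_add (dvd_sub e1 e2) (dvd_mul_right _ _)
      have := dvd_add hsub (hw.trans h2)
      rwa [sub_add_sub_cancel] at this
    exact ⟨c, by linear_combination hc⟩
  choose zb hzb using key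
  exact ⟨zb, by rw [hev]; exact hz, hh0, hzb⟩

/-- The equations of a presentation, regular in the first variable, approximate. -/
theorem approx_regular {n : ℕ} (IH : JetApprox k n) {ι : Type} [Finite ι] {m : ℕ}
    (t : Fin m → MvPowerSeries (Fin (n + 1)) k) (υ : MvPowerSeries (Fin (n + 1)) k)
    (b : ι → MvPowerSeries (Fin (n + 1)) k) (μ : IPoly m) (h : MvPolynomial (Fin m) ℤ)
    (Q : ι → IPoly m) (hμ : pev t υ μ = 0) (hQ : ∀ i, pev t υ (Q i) = tev t h * b i)
    (hreg : axis (tev t h * pev t υ (Polynomial.derivative μ) ^ 2) ≠ 0) (M : ℕ) (hM : 1 ≤ M) :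
    ∃ T : Finset k, ∀ (F : Type u) [Field F] (ψ : Subring.closure (T : Set k) →+* F),
      ∃ (t' : Fin m → MvPowerSeries (Fin (n + 1)) F) (υ' : MvPowerSeries (Fin (n + 1)) F)
        (b' : ι → MvPowerSeries (Fin (n + 1)) F),
        (∀ i, (b i, b' i) ∈ agree (Fin (n + 1)) ψ M) ∧
          pev t' υ' μ = 0 ∧ tev t' h ≠ 0 ∧ ∀ i, pev t' υ' (Q i) = tev t' h * b' i := by
  classical
  have := Fintype.ofFinite ι
  obtain ⟨P⟩ := nonempty_prep t υ b μ h Q hμ hQ hreg M
  let S1 : Finset (MvPowerSeries (Fin n) k) :=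
    P.W.coeffs ∪ (Finset.univ.biUnion fun j => (P.pt j).coeffs) ∪ P.pυ.coeffs ∪
      (Finset.univ.biUnion fun i => (P.pb i).coeffs) ∪ P.eH.coeffs ∪ P.eμ.coeffs ∪
      (Finset.univ.biUnion fun i => (P.eQ i).coeffs)
  set B := Subring.closure (S1 : Set (MvPowerSeries (Fin n) k))
  have hB : ∀ p : Polynomial (MvPowerSeries (Fin n) k), p.coeffs ⊆ S1 →
      ∃ q : Polynomial B, q.map B.subtype = p := fun p hp => exists_lift p fun j => by
    by_cases h0 : p.coeff j = 0
    · rw [h0]; exact zero_mem _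
    · exact Subring.subset_closure (hp (Polynomial.coeff_mem_coeffs h0))
  obtain ⟨W₁, hW₁⟩ := hB P.W (fun x hx => by simp [S1, hx])
  choose pt₁ hpt₁ using fun j => hB (P.pt j) (fun x hx => by
    simp only [S1, Finset.mem_union, Finset.mem_biUnion, Finset.mem_univ, true_and]
    exact .inl <| .inl <| .inl <| .inl <| .inl <| .inr ⟨j, hx⟩)
  obtain ⟨pυ₁, hpυ₁⟩ := hB P.pυ (fun x hx => by simp [S1, hx])
  choose pb₁ hpb₁ using fun i => hB (P.pb i) (fun x hx => by
    simp only [S1, Finset.mem_union, Finset.mem_biUnion, Finset.mem_univ, true_and]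
    exact .inl <| .inl <| .inl <| .inr ⟨i, hx⟩)
  obtain ⟨eH₁, heH₁⟩ := hB P.eH (fun x hx => by simp [S1, hx])
  obtain ⟨eμ₁, heμ₁⟩ := hB P.eμ (fun x hx => by simp [S1, hx])
  choose eQ₁ heQ₁ using fun i => hB (P.eQ i) (fun x hx => by
    simp only [S1, Finset.mem_union, Finset.mem_biUnion, Finset.mem_univ, true_and]
    exact .inr ⟨i, hx⟩)
  have hinj := Polynomial.map_injective B.subtype Subtype.val_injective
  have idH : Polynomial.X ^ M * (tev pt₁ h * pev pt₁ pυ₁ (Polynomial.derivative μ) ^ 2) =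
      W₁ * eH₁ := hinj (by
    simp only [← Polynomial.coe_mapRingHom, map_mul, map_pow, map_tev, map_pev]
    simp only [Polynomial.coe_mapRingHom, Polynomial.map_X, hpt₁, hpυ₁, hW₁, heH₁]
    exact P.idH)
  have idμ : pev pt₁ pυ₁ μ = W₁ * eμ₁ := hinj (by
    simp only [← Polynomial.coe_mapRingHom, map_mul, map_pev]
    simp only [Polynomial.coe_mapRingHom, hpt₁, hpυ₁, hW₁, heμ₁]
    exact P.idμ)
  have idQ : ∀ i, pev pt₁ pυ₁ (Q i) - tev pt₁ h * pb₁ i = W₁ * eQ₁ i := fun i => hinj (by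
    simp only [← Polynomial.coe_mapRingHom, map_sub, map_mul, map_tev, map_pev]
    simp only [Polynomial.coe_mapRingHom, hpt₁, hpυ₁, hpb₁, hW₁, heQ₁]
    exact P.idQ i)
  -- the scalars
  set a := P.W.natDegree
  set M₁ := a + M + 1
  obtain ⟨T₁, hT₁⟩ := IH S1 M₁
  set jets : Finset (Fin (n + 1) →₀ ℕ) := (Finsupp.finite_of_degree_lt M₁).toFinset
  set u₀ := coeff (Finsupp.cons a 0)
    (X 0 ^ M * (tev t h * pev t υ (Polynomial.derivative μ) ^ 2))
  let T : Finset k := T₁ ∪ (Finset.univ.biUnion fun j => jets.image fun β => coeff β (P.qt j))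
    ∪ jets.image (fun β => coeff β P.qυ)
    ∪ (Finset.univ.biUnion fun i => jets.image fun β => coeff β (P.qb i)) ∪ {u₀, u₀⁻¹}
  refine ⟨T, fun F _ ψ => ?_⟩
  have hmem : ∀ {x : k}, x ∈ T → x ∈ Subring.closure (T : Set k) := fun hx =>
    Subring.subset_closure hx
  have hT1A : Subring.closure (T₁ : Set k) ≤ Subring.closure (T : Set k) :=
    Subring.closure_mono (by intro x hx; simp [T, Finset.mem_coe.1 hx])
  have hjets : ∀ {β : Fin (n + 1) →₀ ℕ}, β.degree < M₁ → β ∈ jets := fun hβ => by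
    simpa [jets] using hβ
  obtain ⟨φ₁, hφ₁⟩ := hT₁ F (ψ.comp (Subring.inclusion hT1A))
  choose qt' hqt' using fun j => exists_agree (f := P.qt j) (M := M₁) ψ (fun β hβ => hmem (by
    simp only [T, Finset.mem_union, Finset.mem_biUnion, Finset.mem_image, Finset.mem_univ, true_and]
    exact .inl <| .inl <| .inl <| .inr ⟨j, β, hjets hβ, rfl⟩))
  obtain ⟨qυ', hqυ'⟩ := exists_agree (f := P.qυ) (M := M₁) ψ (fun β hβ => hmem (by
    simp only [T, Finset.mem_union, Finset.mem_image]
    exact .inl <| .inl <| .inr ⟨β, hjets hβ, rfl⟩))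
  choose qb' hqb' using fun i => exists_agree (f := P.qb i) (M := M₁) ψ (fun β hβ => hmem (by
    simp only [T, Finset.mem_union, Finset.mem_biUnion, Finset.mem_image, Finset.mem_univ, true_and]
    exact .inl <| .inr ⟨i, β, hjets hβ, rfl⟩))
  let Φ : Polynomial B →+* MvPowerSeries (Fin (n + 1)) F :=
    (phi F n).comp (Polynomial.mapRingHom φ₁)
  have hpoly : ∀ p₁ : Polynomial B, ∀ p, p₁.map B.subtype = p →
      (phi k n p, Φ p₁) ∈ agree (Fin (n + 1)) ψ M₁ := by
    rintro p₁ _ rfl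
    refine agree_phi fun j => ?_
    rw [Polynomial.coeff_map, Polynomial.coe_mapRingHom, Polynomial.coeff_map]
    exact agree_incl hT1A (hφ₁ _)
  have hW₁mon : W₁.Monic := Polynomial.monic_of_injective (f := B.subtype) Subtype.val_injective
    (by rw [hW₁]; exact P.monic)
  have hW₁deg : W₁.natDegree = a := by
    rw [← Polynomial.natDegree_map_eq_of_injective (f := B.subtype) Subtype.val_injective W₁, hW₁]
  have haxis : axis (Φ W₁) = PowerSeries.X ^ a := by
    change axis (phi F n (W₁.map φ₁)) = _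
    refine axis_phi_eq _ (hW₁mon.map φ₁) (by rw [hW₁mon.natDegree_map, hW₁deg]) fun j hj => ?_
    rw [Polynomial.coeff_map, ← coeff_zero_eq_constantCoeff_apply]
    refine (agree_coeff (agree_incl hT1A (hφ₁ (W₁.coeff j))) (β := 0) (by simp [M₁]) 0 ?_).trans
      (map_zero ψ)
    have h2 : ((W₁.coeff j : B) : MvPowerSeries (Fin n) k) = P.W.coeff j := by
      rw [← hW₁, Polynomial.coeff_map]; rfl
    rw [h2, coeff_zero_eq_constantCoeff_apply, P.low j hj]
    rfl
  have hww := hpoly W₁ _ hW₁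
  have htt' : ∀ j, (t j, Φ (pt₁ j) + Φ W₁ * qt' j) ∈ agree (Fin (n + 1)) ψ M₁ := fun j => by
    rw [P.ht j]
    exact add_mem (hpoly _ _ (hpt₁ j)) (mul_mem hww (hqt' j))
  have hυυ : (υ, Φ pυ₁ + Φ W₁ * qυ') ∈ agree (Fin (n + 1)) ψ M₁ := by
    have h1 := add_mem (hpoly _ _ hpυ₁) (mul_mem hww hqυ')
    rwa [Prod.mk_mul_mk, Prod.mk_add_mk, ← P.hυ] at h1
  have hbb : ∀ i, (b i, Φ (pb₁ i) + Φ W₁ * qb' i) ∈ agree (Fin (n + 1)) ψ M₁ := fun i => by
    rw [P.hb i]
    exact add_mem (hpoly _ _ (hpb₁ i)) (mul_mem hww (hqb' i))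
  have hu₀A : u₀ ∈ Subring.closure (T : Set k) := hmem (by simp [T])
  have hu₀A' : u₀⁻¹ ∈ Subring.closure (T : Set k) := hmem (by simp [T])
  have htop : coeff (Finsupp.cons a 0) (X 0 ^ M *
      (tev (fun j => Φ (pt₁ j) + Φ W₁ * qt' j) h *
        pev (fun j => Φ (pt₁ j) + Φ W₁ * qt' j) (Φ pυ₁ + Φ W₁ * qυ')
          (Polynomial.derivative μ) ^ 2)) ≠ 0 := by
    have hpair : (X 0 ^ M * (tev t h * pev t υ (Polynomial.derivative μ) ^ 2),
        X 0 ^ M * (tev (fun j => Φ (pt₁ j) + Φ W₁ * qt' j) h *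
          pev (fun j => Φ (pt₁ j) + Φ W₁ * qt' j) (Φ pυ₁ + Φ W₁ * qυ')
            (Polynomial.derivative μ) ^ 2)) ∈ agree (Fin (n + 1)) ψ M₁ := mul_mem (pow_mem (agree_X (M := M₁) ψ (0 : Fin (n + 1))) M)
      (mul_mem (pair_tev_mem htt' h) (pow_mem (pair_pev_mem htt' hυυ (Polynomial.derivative μ)) 2))
    rw [agree_coeff hpair (β := Finsupp.cons a 0) (by rw [degree_cons]; simp [M₁])
      ⟨u₀, hu₀A⟩ rfl]
    refine ((IsUnit.of_mul_eq_one (a := (⟨u₀, hu₀A⟩ : Subring.closure (T : Set k)))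
      ⟨u₀⁻¹, hu₀A'⟩ (Subtype.ext (mul_inv_cancel₀ P.top))).map ψ).ne_zero
  obtain ⟨υ', zb, hr1, hr2, hr3⟩ := exists_point Φ (by simp [Φ, phi_X]) W₁ eH₁ eμ₁ pt₁ pυ₁ pb₁ eQ₁
    μ h Q hM idH idμ idQ haxis qt' qυ' qb' htop
  refine ⟨_, υ', _, fun i => ?_, hr1, hr2, hr3⟩
  have := add_mem (agree_mono (M := M) (by omega) (hbb i)) (agree_zero_left ψ M (zb i))
  rwa [Prod.mk_add_mk, add_zero] at this

end Vale.Agent.P202.Zero.Apx
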